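import Crest.Agent.X261.Two.SelN
import Crest.Agent.X261.Two.Del
import Crest.Agent.X261.Psh.Kis71
import Crest.Agent.X261.Pole.Plq
import Crest.Agent.X261.Rn93.Bas
import Crest.Agent.X261.Lim.Defs
import Crest.Agent.X261.Fol.Loc
import Crest.Agent.X261.Law.Main
import Crest.Agent.X261.BT.DiscA
import Crest.Agent.X261.BT.MxC
import Crest.Agent.X261.BT.MxP
import Crest.Agent.X261.BT.BalB
import Crest.Agent.X261.BT.En
import Crest.Agent.X261.BT.Inst
import Crest.Agent.X261.Top.Defs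
import Crest.Agent.X261.Ans.Man3
import Crest.Agent.X261.Ans.HkB
import Crest.Agent.X261.Psh.Cvx
import Crest.Agent.X261.BT.Defs

-- ▼ part X261/Two/UU
section

/-!
# Row 261, package TWO (helper15), file `UU`

The chart function `UU X Y` : jointly plurisubharmonic along holomorphic pole families,
symmetric, equivariant, and equal to `Xi + Ph + Ph` at good points.
-/

set_option autoImplicit false
set_option linter.dupNamespace false

open Set Filter Topology Finset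

noncomputable section

namespace Crest.Agent.X261.Two

open Crest.Agent.X261.Pole Crest.Agent.X261.Psh Crest.Agent.X261.Psh.Kis

variable {M : Type*} {S : LS M}

/-- total slope in the radius -/
def Kc (k : ℝ) (p : ℕ) (l : ℝ) (m : ℕ) : ℝ := ∑ j ∈ range m, kc k p (lev l m j)

/-- total depth energy of the ray of `a` -/
def sΦ (Y : PF S) (l : ℝ) (m : ℕ) (s T : ℝ) (a : M → ℝ) : ℝ :=
  ∑ j ∈ range m, Y.Φ (S.P 0 a (j * (T / m))) s (lev l m j * s)

/-- the two-point functional at finite radius -/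
def J2 (X Y : PF S) (l : ℝ) (m : ℕ) (s T : ℝ) : ℝ :=
  sInf ((fun a => sΦ X l m s T a + sΦ Y l m s T a - S.D a) '' Adm S T)

/-- the two-point chart function -/
def UU (X Y : PF S) (k : ℝ) (p : ℕ) (l : ℝ) (m : ℕ) (t : ℝ) : EReal :=
  ⨅ s ∈ Set.Ioi (max X.s0 Y.s0), ⨅ T ∈ Set.Ici (0 : ℝ),
    ((J2 X Y l m s T - 2 * Kc k p l m * s + (kap k p l m - t) * T : ℝ) : EReal)

variable {X Y : PF S} {k : ℝ} {p : ℕ} {l s T t : ℝ} {m : ℕ} {a : M → ℝ}

theorem J2_comm (X Y : PF S) : J2 X Y l m s T = J2 Y X l m s T := by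
  simp only [J2, add_comm]

theorem UU_comm (X Y : PF S) : UU X Y k p l m t = UU Y X k p l m t := by
  simp only [UU, J2_comm X Y, max_comm X.s0]

theorem sΦ_nonneg (hs : Y.s0 < s) (hT : 0 ≤ T) (ha : a ∈ S.Q) : 0 ≤ sΦ Y l m s T a :=
  sum_nonneg fun j _ => PF.Φ_nonneg (sh_mem ha (step_nonneg hT m j)) hs _

theorem D_le_sΦ (hm : 0 < m) (hs : Y.s0 < s) (hT : 0 ≤ T) (ha : a ∈ S.Q) :
    S.D a ≤ sΦ Y l m s T a := by
  have h1 := single_le_sum (f := fun j : ℕ => Y.Φ (S.P 0 a (j * (T / m))) s (lev l m j * s))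
    (fun j _ => PF.Φ_nonneg (sh_mem ha (step_nonneg hT m j)) hs _) (mem_range.2 hm)
  simp only [Nat.cast_zero, zero_mul, sh_zero ha] at h1
  exact ((Y.cons s hs _).D_le_dp ha).trans h1

theorem J2_le (hm : 0 < m) (hX : X.s0 < s) (hY : Y.s0 < s) (hT : 0 ≤ T) (ha : a ∈ Adm S T) :
    J2 X Y l m s T ≤ sΦ X l m s T a + sΦ Y l m s T a - S.D a := by
  refine csInf_le ⟨0, ?_⟩ ⟨a, ha, rfl⟩
  rintro _ ⟨b, hb, rfl⟩
  have := D_le_sΦ (l := l) hm hX hT hb.1
  have := sΦ_nonneg (l := l) (m := m) hY hT hb.1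
  simp only; linarith

theorem le_J2 (hT : 0 ≤ T) {r : ℝ}
    (h : ∀ a ∈ Adm S T, r ≤ sΦ X l m s T a + sΦ Y l m s T a - S.D a) : r ≤ J2 X Y l m s T :=
  le_csInf ⟨_, 0, zero_adm hT, rfl⟩ (by rintro _ ⟨a, ha, rfl⟩; exact h a ha)

theorem UU_le (hX : X.s0 < s) (hY : Y.s0 < s) (hT : 0 ≤ T) : UU X Y k p l m t ≤
    ((J2 X Y l m s T - 2 * Kc k p l m * s + (kap k p l m - t) * T : ℝ) : EReal) :=
  iInf₂_le_of_le s (max_lt hX hY) (iInf₂_le T hT)

/-! ### good points -/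

theorem sc_add_le (hY : Y.Asy k p) (hl : 0 < l) (hs : Y.s0 < s) (hT : 0 ≤ T) (ha : a ∈ S.Q) :
    sc Y k p l m T a + Ph Y k p l m ≤ sΦ Y l m s T a - Kc k p l m * s := by
  rw [sc, Ph, sΦ, Kc, sum_mul, ← sum_add_distrib, ← sum_sub_distrib]
  refine sum_le_sum fun j hj => ?_
  have := hY.dl_le (lev_pos hl (mem_range.1 hj)) (sh_mem ha (step_nonneg hT m j)) hs
    (lev l m j * s)
  unfold PF.cst
  linarith

theorem tendsto_sΦ (hY : Y.Asy k p) (hl : 0 < l) (hT : 0 ≤ T) (ha : a ∈ S.Q) :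
    Tendsto (fun s => sΦ Y l m s T a - Kc k p l m * s) atTop
      (𝓝 (sc Y k p l m T a + Ph Y k p l m)) := by
  simp only [sc, Ph, sΦ, Kc, sum_mul, ← sum_add_distrib, ← sum_sub_distrib, PF.cst,
    sub_add_cancel]
  exact tendsto_finsetSum _ fun j hj =>
    hY.tendsto0 (lev_pos hl (mem_range.1 hj)) (sh_mem ha (step_nonneg hT m j))

theorem del_le_J2 (hX : X.Asy k p) (hY : Y.Asy k p) (hl : 0 < l) (hm : 0 < m) (hXs : X.s0 < s)
    (hYs : Y.s0 < s) (hT : 0 ≤ T) : del X Y k p l m T + Ph X k p l m + Ph Y k p l m -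
      kap k p l m * T ≤ J2 X Y l m s T - 2 * Kc k p l m * s := by
  refine le_sub_iff_add_le.2 (le_J2 hT fun a ha => ?_)
  have h1 := del_le hX hY hl hm hT ha
  have h2 := sc_add_le (m := m) hX hl hXs hT ha.1
  have h3 := sc_add_le (m := m) hY hl hYs hT ha.1
  unfold br at h1
  linarith

theorem ev_J2_lt (hX : X.Asy k p) (hY : Y.Asy k p) (hl : 0 < l) (hm : 0 < m) (hT : 0 ≤ T) {r : ℝ}
    (hr : del X Y k p l m T < r) : ∀ᶠ s in atTop, J2 X Y l m s T - 2 * Kc k p l m * s <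
      r + Ph X k p l m + Ph Y k p l m - kap k p l m * T := by
  obtain ⟨a, ha, h⟩ := exists_br_lt hT hr
  have h1 := ((tendsto_sΦ (m := m) hX hl hT ha.1).add (tendsto_sΦ (m := m) hY hl hT ha.1)).eventually
    (gt_mem_nhds (show _ < r + Ph X k p l m + Ph Y k p l m - kap k p l m * T + S.D a by
      unfold br at h; linarith))
  filter_upwards [h1, eventually_gt_atTop X.s0, eventually_gt_atTop Y.s0] with s e1 e2 e3
  linarith [J2_le (l := l) hm e2 e3 hT ha]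

/-- at good points `UU = Xi + Ph + Ph` -/
theorem UU_eq (hX : X.Asy k p) (hY : Y.Asy k p) (hl : 0 < l) (hm : 0 < m) :
    UU X Y k p l m t = Xi X Y k p l m t + ((Ph X k p l m + Ph Y k p l m : ℝ) : EReal) := by
  refine le_antisymm (le_of_forall_gt_imp_ge_of_dense fun q hq => ?_)
    (le_iInf₂ fun s hs => le_iInf₂ fun T hT => ?_)
  · obtain ⟨b, hb1, hb2⟩ := EReal.lt_iff_exists_real_btwn.1 hq
    obtain ⟨T, hT, h⟩ := exists_of_Xi_lt (add_coe_lt_iff.1 hb1)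
    obtain ⟨s, e1, e2, e3⟩ := ((ev_J2_lt hX hY hl hm hT
      (r := b - (Ph X k p l m + Ph Y k p l m) + t * T) (by linarith)).and
      ((eventually_gt_atTop X.s0).and (eventually_gt_atTop Y.s0))).exists
    exact (UU_le e2 e3 hT).trans ((EReal.coe_le_coe_iff.2 (by linarith)).trans hb2.le)
  · refine add_coe_le_iff.2 ((Xi_le hT).trans (EReal.coe_le_coe_iff.2 ?_))
    linarith [del_le_J2 hX hY hl hm ((le_max_left _ _).trans_lt hs) ((le_max_right _ _).trans_lt hs)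
      hT]


theorem star_of_convex (hX : X.Asy k p) (hY : Y.Asy k p) (hl : 0 < l) (hm : 0 < m)
    (h : ∀ᶠ s in atTop, ∀ T θ : ℝ, 0 ≤ T → 0 ≤ θ → θ ≤ 1 →
      J2 X Y l m s (θ * T) ≤ (1 - θ) * J2 X Y l m s 0 + θ * J2 X Y l m s T) :
    Star X Y k p l m := by
  intro T θ hT h0 h1
  refine le_of_forall_pos_le_add fun ε hε => ?_
  obtain ⟨s, e1, e2, e3, e4, e5⟩ := (h.and
    ((ev_J2_lt hX hY hl hm hT (lt_add_of_pos_right _ hε)).and
    ((ev_J2_lt hX hY hl hm le_rfl (lt_add_of_pos_right _ hε)).and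
    ((eventually_gt_atTop X.s0).and (eventually_gt_atTop Y.s0))))).exists
  have e6 := del_le_J2 hX hY hl hm e4 e5 (mul_nonneg h0 hT)
  have e7 := e1 T θ hT h0 h1
  rw [del_zero hX hY hl hm] at e3
  have e8 := mul_le_mul_of_nonneg_left e2.le h0
  have e9 := mul_le_mul_of_nonneg_left e3.le (sub_nonneg.2 h1)
  nlinarith

/-! ### equivariance -/

/-- `γ` preserves the energy lattice -/
structure Sym (S : LS M) (γ : M ≃ M) : Prop where
  mem : ∀ f, f ∘ γ ∈ S.Q ↔ f ∈ S.Q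
  D : ∀ f ∈ S.Q, S.D (f ∘ γ) = S.D f

/-- `X'` is the image of `X` under `γ` -/
structure Tr (γ : M ≃ M) (X X' : PF S) : Prop where
  s0 : X'.s0 = X.s0
  mem : ∀ s, X.s0 < s → ∀ h, ∀ f ∈ S.Q, f ∈ X'.F s h ↔ f ∘ γ ∈ X.F s h

section sym

variable {γ : M ≃ M} {X' Y' : PF S}

theorem comp_symm_comp (γ : M ≃ M) (f : M → ℝ) : (f ∘ γ.symm) ∘ γ = f := by
  funext x; simp

theorem Sym.mem' (hγ : Sym S γ) {f : M → ℝ} (hf : f ∈ S.Q) : f ∘ γ.symm ∈ S.Q :=
  (hγ.mem _).1 (by rwa [comp_symm_comp])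

theorem Sym.sh (hγ : Sym S γ) (ha : a ∈ S.Q) (ht : 0 ≤ t) :
    S.P 0 (a ∘ γ) t = S.P 0 a t ∘ γ := by
  have ha' := (hγ.mem a).2 ha
  refine le_antisymm (fun x => ?_) (le_sh ha' ht ((hγ.mem _).2 (sh_mem ha ht))
    fun x => sh_le ha ht (γ x))
  simpa using le_sh ha ht (hγ.mem' (sh_mem ha' ht))
    (fun y => by simpa using sh_le ha' ht (γ.symm y)) (γ x)

theorem Tr.Φ (hγ : Sym S γ) (hX : Tr γ X X') (hs : X.s0 < s) (a : M → ℝ) (h : ℝ) :
    X'.Φ a s h = X.Φ (a ∘ γ) s h := by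
  unfold PF.Φ LS.dp
  congr 1
  ext r
  constructor
  · rintro ⟨f, ⟨f1, f2, f3⟩, rfl⟩
    exact ⟨f ∘ γ, ⟨(hγ.mem f).2 f1, fun x => f2 _, (hX.mem s hs h f f1).1 f3⟩, hγ.D f f1⟩
  · rintro ⟨f, ⟨f1, f2, f3⟩, rfl⟩
    refine ⟨f ∘ γ.symm, ⟨hγ.mem' f1, fun x => by simpa using f2 (γ.symm x),
      (hX.mem s hs h _ (hγ.mem' f1)).2 (by rwa [comp_symm_comp])⟩, ?_⟩
    rw [← hγ.D _ (hγ.mem' f1), comp_symm_comp]

theorem Tr.Φ0 (hγ : Sym S γ) (hX : Tr γ X X') (hs : X.s0 < s) (h : ℝ) :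
    X'.Φ 0 s h = X.Φ 0 s h := hX.Φ hγ hs 0 h

theorem Tr.Dl (hγ : Sym S γ) (hX : Tr γ X X') (c : ℝ) (a : M → ℝ) :
    X'.Dl k p c a = X.Dl k p c (a ∘ γ) := by
  unfold PF.Dl
  rw [hX.s0]
  exact iInf_congr fun s => iInf_congr fun hs => by rw [hX.Φ hγ hs]

theorem Tr.asy (hγ : Sym S γ) (hX : Tr γ X X') (h : X.Asy k p) : X'.Asy k p := by
  intro c₀ c₁ hc
  obtain ⟨C, s₁, H⟩ := h c₀ c₁ hc
  refine ⟨C, max s₁ (X.s0 + 1), fun s hs r h1 h2 => ?_⟩
  rw [hX.Φ0 hγ (by linarith [le_max_right s₁ (X.s0 + 1)])]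
  exact H s ((le_max_left _ _).trans hs) r h1 h2


theorem Tr.sΦ (hγ : Sym S γ) (hX : Tr γ X X') (hs : X.s0 < s) (hT : 0 ≤ T) (ha : a ∈ S.Q) :
    sΦ X' l m s T a = sΦ X l m s T (a ∘ γ) :=
  sum_congr rfl fun j _ => by rw [hX.Φ hγ hs, hγ.sh ha (step_nonneg hT m j)]

theorem Tr.J2 (hγ : Sym S γ) (hX : Tr γ X X') (hY : Tr γ Y Y') (hXs : X.s0 < s) (hYs : Y.s0 < s)
    (hT : 0 ≤ T) : J2 X' Y' l m s T = J2 X Y l m s T := by
  unfold Two.J2
  congr 1
  ext r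
  constructor
  · rintro ⟨a, ha, rfl⟩
    exact ⟨a ∘ γ, ⟨(hγ.mem a).2 ha.1, fun x => ha.2 _⟩, by
      simp only [hX.sΦ hγ hXs hT ha.1, hY.sΦ hγ hYs hT ha.1, hγ.D a ha.1]⟩
  · rintro ⟨a, ha, rfl⟩
    refine ⟨a ∘ γ.symm, ⟨hγ.mem' ha.1, fun x => ha.2 _⟩, ?_⟩
    simp only [hX.sΦ hγ hXs hT (hγ.mem' ha.1), hY.sΦ hγ hYs hT (hγ.mem' ha.1),
      ← hγ.D _ (hγ.mem' ha.1), comp_symm_comp]

theorem Tr.UU (hγ : Sym S γ) (hX : Tr γ X X') (hY : Tr γ Y Y') :
    UU X' Y' k p l m t = UU X Y k p l m t := by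
  unfold Two.UU
  rw [hX.s0, hY.s0]
  exact iInf_congr fun s => iInf_congr fun hs => iInf_congr fun T => iInf_congr fun hT => by
    rw [hX.J2 hγ hY ((le_max_left _ _).trans_lt hs) ((le_max_right _ _).trans_lt hs) hT]


end sym

/-! ### plurisubharmonicity -/

variable [TopologicalSpace M] {R : DS M}

/-- the two structures describe the same energy -/
structure Cmp (R : DS M) (S : LS M) : Prop where
  Q : R.Q = S.Q
  D : R.D = S.D

/-- the constraints of the levels -/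
def famF (X Y : PF S) (l : ℝ) (m : ℕ) (s : ℝ) : Fin m ⊕ Fin m → Set (M → ℝ) :=
  Sum.elim (fun j => {f | f ∈ S.Q ∧ f ∈ X.F s (lev l m j * s)})
    fun j => {f | f ∈ S.Q ∧ f ∈ Y.F s (lev l m j * s)}

/-- the shifts of the levels -/
def famT (m : ℕ) (T : ℝ) : Fin m ⊕ Fin m → ℝ :=
  Sum.elim (fun j => (j : ℕ) * (T / m)) fun j => (j : ℕ) * (T / m)

theorem J2_eq_JN (hR : Cmp R S) (hm : 0 < m) (hX : X.s0 < s) (hY : Y.s0 < s) (hT : 0 ≤ T) :
    J2 X Y l m s T = R.JN (.inl ⟨0, hm⟩) (famF X Y l m s) (famT m T) T := by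
  have hF : ∀ i, famF X Y l m s i ⊆ R.Q := fun i f hf => by
    rw [hR.Q]; cases i <;> exact hf.1
  have ht : ∀ i, 0 ≤ famT m T i := fun i => by cases i <;> exact step_nonneg hT m _
  have hne : ∀ i, (famF X Y l m s i).Nonempty := fun i => by
    cases i with
    | inl j => obtain ⟨f, h1, -, h2⟩ := (X.cons s hX _).ne 0 S.zero_mem; exact ⟨f, h1, h2⟩
    | inr j => obtain ⟨f, h1, -, h2⟩ := (Y.cons s hY _).ne 0 S.zero_mem; exact ⟨f, h1, h2⟩
  refine le_antisymm (DS.le_JN hne fun f hf => ?_) (le_J2 hT fun a ha => ?_)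
  · have hA : mxN (.inl ⟨0, hm⟩) f (famT m T) T ∈ S.Q :=
      hR.Q ▸ DS.mxN_mem (fun i => hF i (hf i)) ht hT
    obtain ⟨-, h2, h3⟩ := le_mxN (.inl ⟨0, hm⟩) f (famT m T) T
    refine (J2_le (l := l) hm hX hY hT ⟨hA, h2⟩).trans ?_
    rw [DS.valN, hR.D, Fintype.sum_sum_type, sΦ, sΦ, sum_range, sum_range]
    refine sub_le_sub_right (add_le_add (sum_le_sum fun j _ => ?_) (sum_le_sum fun j _ => ?_)) _
    · exact LS.dp_le (hf (.inl j)).1 (le_sh hA (ht (.inl j)) (hf (.inl j)).1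
        fun x => sub_le_iff_le_add.1 (h3 (.inl j) x)) (hf (.inl j)).2
    · exact LS.dp_le (hf (.inr j)).1 (le_sh hA (ht (.inr j)) (hf (.inr j)).1
        fun x => sub_le_iff_le_add.1 (h3 (.inr j) x)) (hf (.inr j)).2
  · refine le_of_forall_pos_le_add fun ε hε => ?_
    have hm' : (0 : ℝ) < m := by exact_mod_cast hm
    have h2 : 0 < ε / (2 * m) := by positivity
    choose f f1 f2 f3 f4 using fun j : Fin m =>
      (X.cons s hX (lev l m j * s)).near (sh_mem ha.1 (step_nonneg hT m j)) h2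
    choose g g1 g2 g3 g4 using fun j : Fin m =>
      (Y.cons s hY (lev l m j * s)).near (sh_mem ha.1 (step_nonneg hT m j)) h2
    have hfg : ∀ i, Sum.elim f g i ∈ famF X Y l m s i := fun i => by
      cases i with
      | inl j => exact ⟨f1 j, f3 j⟩
      | inr j => exact ⟨g1 j, g3 j⟩
    refine (DS.JN_le hF ht hT hfg).trans ?_
    have hA : mxN (.inl ⟨0, hm⟩) (Sum.elim f g) (famT m T) T ∈ S.Q :=
      hR.Q ▸ DS.mxN_mem (fun i => hF i (hfg i)) ht hT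
    have h3 : ∀ i x, Sum.elim f g i x - famT m T i ≤ a x := fun i x => by
      cases i with
      | inl j => exact sub_le_iff_le_add.2 ((f2 j x).trans (sh_le ha.1 (step_nonneg hT m j) x))
      | inr j => exact sub_le_iff_le_add.2 ((g2 j x).trans (sh_le ha.1 (step_nonneg hT m j) x))
    have h4 := S.anti _ hA a ha.1 (mxN_le_iff.2
      ⟨fun x => by simpa [famT] using h3 (.inl ⟨0, hm⟩) x, ha.2, h3⟩)
    have h5 := sum_le_sum fun j (_ : j ∈ Finset.univ) => (f4 j).le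
    have h6 := sum_le_sum fun j (_ : j ∈ Finset.univ) => (g4 j).le
    rw [sum_add_distrib, sum_const, card_univ, Fintype.card_fin, nsmul_eq_mul] at h5 h6
    have h7 : (m : ℝ) * (ε / (2 * m)) = ε / 2 := by field_simp
    rw [DS.valN, hR.D, Fintype.sum_sum_type, sΦ, sΦ, sum_range, sum_range]
    simp only [Sum.elim_inl, Sum.elim_inr, PF.Φ]
    linarith

variable {E E' : Type*} [NormedAddCommGroup E] [NormedSpace ℂ E] [NormedAddCommGroup E']
  [NormedSpace ℂ E']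

theorem Fam.congr {O : Set E} {F F' : E → Set (M → ℝ)} (h : Fam R O F) (hO : IsOpen O)
    (he : ∀ e ∈ O, F e = F' e) : Fam R O F' := by
  refine ⟨fun e h' => he e h' ▸ h.sub e h', fun e h' => he e h' ▸ h.convex e h',
    fun K hKO hK => ?_, fun z v hz V hV hle => he z hz.center ▸ h.mp z v hz V hV fun w hw =>
      (he _ (hz w hw.le)).symm ▸ hle w hw⟩
  obtain ⟨b, h1, h2⟩ := h.strict K hKO hK
  refine ⟨b, fun e h' => he e (hKO h') ▸ h1 e h', fun e₀ h' f hf θ h0 h3 => ?_⟩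
  filter_upwards [h2 e₀ h' f ((he e₀ (hKO h')).symm ▸ hf) θ h0 h3, hO.mem_nhds (hKO h')]
    with e h4 h5 using he e h5 ▸ h4

/-- holomorphic families of poles: `(x, σ, η) ↦ F x (re σ) (re η)` is admissible -/
structure Hol (R : DS M) (X : E → PF S) (O : Set E) (s₀ : ℝ) : Prop where
  s0 : ∀ x ∈ O, (X x).s0 = s₀
  fam : Fam R (O ×ˢ strip (Set.Ioi s₀) ×ˢ Set.univ)
    fun e : E × ℂ × ℂ => {f | f ∈ S.Q ∧ f ∈ (X e.1).F e.2.1.re e.2.2.re}

theorem tube_J2 (hR : Cmp R S) {X : E → PF S} {Y : E' → PF S} {O : Set E} {O' : Set E'}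
    {s₁ s₂ : ℝ} (hX : Hol R X O s₁) (hY : Hol R Y O' s₂) (l : ℝ) (hm : 0 < m) :
    Tube ((O ×ˢ O') ×ˢ strip (Set.Ioi (max s₁ s₂))) (Set.Ici 0)
      fun (q : (E × E') × ℂ) T => (J2 (X q.1.1) (Y q.1.2) l m q.2.re T : EReal) := by
  set σ : ((E × E') × ℂ) × ℂ →L[ℂ] ℂ :=
    (ContinuousLinearMap.snd ℂ _ _).comp (ContinuousLinearMap.fst ℂ _ _) with hσ
  set π : ((E × E') × ℂ) × ℂ →L[ℂ] E × E' :=
    (ContinuousLinearMap.fst ℂ _ _).comp (ContinuousLinearMap.fst ℂ _ _) with hπ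
  set D := ((O ×ˢ O') ×ˢ strip (Set.Ioi (max s₁ s₂))) ×ˢ strip (Set.Ici (0 : ℝ)) with hD
  have hF : ∀ i, Fam R D fun e => famF (X e.1.1.1) (Y e.1.1.2) l m e.1.2.re i := fun i => by
    cases i with
    | inl j =>
      have := hX.fam.comp_affine (((ContinuousLinearMap.fst ℂ _ _).comp π).prod
        (σ.prod ((lev l m j : ℂ) • σ))) 0 (O' := D) fun e he =>
          ⟨by simpa [hπ] using he.1.1.1, by
            simpa [hσ, strip] using (le_max_left _ _).trans_lt he.1.2, trivial⟩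
      simpa [famF, hσ, hπ] using this
    | inr j =>
      have := hY.fam.comp_affine (((ContinuousLinearMap.snd ℂ _ _).comp π).prod
        (σ.prod ((lev l m j : ℂ) • σ))) 0 (O' := D) fun e he =>
          ⟨by simpa [hπ] using he.1.1.2, by
            simpa [hσ, strip] using (le_max_right _ _).trans_lt he.1.2, trivial⟩
      simpa [famF, hσ, hπ] using this
  set L : Fin m ⊕ Fin m → ((E × E') × ℂ) × ℂ →L[ℂ] ℂ := fun i =>
    ((famT m 1 i : ℝ) : ℂ) • ContinuousLinearMap.snd ℂ _ _ with hL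
  have eL : ∀ i e, (0 + L i e).re = famT m e.2.re i := fun i e => by
    have : famT m e.2.re i = famT m 1 i * e.2.re := by cases i <;> simp only [famT] <;>
      simp <;> ring
    simp [hL, this]
  have h := psh_JN (.inl ⟨0, hm⟩) hF (fun _ => 0) L 0 (ContinuousLinearMap.snd ℂ _ _)
    (fun i e he => by
      rw [eL]; cases i <;> exact step_nonneg he.2 m _)
    (fun e he => by simpa [strip] using he.2)
  refine h.congr fun e he => ?_
  simp only [eL]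
  rw [J2_eq_JN hR hm (hX.s0 _ he.1.1.1 ▸ (le_max_left _ _).trans_lt he.1.2)
    (hY.s0 _ he.1.1.2 ▸ (le_max_right _ _).trans_lt he.1.2) he.2]
  simp

/-- **(PSH)** -/
theorem psh_UU (hR : Cmp R S) {X : E → PF S} {Y : E' → PF S} {O : Set E} {O' : Set E'}
    (hO : IsOpen O) (hO' : IsOpen O') {s₁ s₂ : ℝ} (hX : Hol R X O s₁) (hY : Hol R Y O' s₂)
    (k : ℝ) (p : ℕ) (l : ℝ) (hm : 0 < m) (t : ℝ) :
    IsPsh (O ×ˢ O') fun q : E × E' => UU (X q.1) (Y q.2) k p l m t := by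
  have h1 := ((tube_J2 hR hX hY l hm).add_lin (kap k p l m - t) 0).add_psh
    (Hol.isPsh_re (H := fun q : (E × E') × ℂ => ((-(2 * Kc k p l m) : ℝ) : ℂ) * q.2)
      (by fun_prop))
  have h2 := h1.iInf ((hO.prod hO').prod (isOpen_strip isOpen_Ioi)) Set.ordConnected_Ici
    Set.nonempty_Ici
  have h3 : Tube (O ×ˢ O') (Set.Ioi (max s₁ s₂)) fun q s => ⨅ T ∈ Set.Ici (0 : ℝ),
      ((J2 (X q.1) (Y q.2) l m s T - 2 * Kc k p l m * s + (kap k p l m - t) * T : ℝ) : EReal) :=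
    h2.congr fun q _ => iInf_congr fun T => iInf_congr fun _ => by
      rw [← EReal.coe_add, ← EReal.coe_add, Complex.re_ofReal_mul]
      congr 1; ring
  refine (h3.iInf (hO.prod hO') Set.ordConnected_Ioi Set.nonempty_Ioi).congr fun q hq => ?_
  simp only [UU, hX.s0 _ hq.1, hY.s0 _ hq.2]

/-- convexity in `T` at good points -/
theorem star (hR : Cmp R S) {X : E → PF S} {Y : E' → PF S} {O : Set E} {O' : Set E'}
    {s₁ s₂ : ℝ} (hX : Hol R X O s₁) (hY : Hol R Y O' s₂) {x : E} {y : E'} (hx : x ∈ O)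
    (hy : y ∈ O') (ax : (X x).Asy k p) (ay : (Y y).Asy k p) (hl : 0 < l) (hm : 0 < m) :
    Star (X x) (Y y) k p l m := by
  refine star_of_convex ax ay hl hm ?_
  filter_upwards [eventually_gt_atTop (max s₁ s₂)] with s hs T θ hT h0 h1
  have := (tube_J2 hR hX hY l hm).convex Set.ordConnected_Ici (x := ((x, y), (s : ℂ)))
    ⟨⟨hx, hy⟩, by simpa [strip] using hs⟩ (s0 := 0) (s1 := T) Set.self_mem_Ici hT le_rfl le_rfl
    (sub_nonneg.2 h1) h0 (by ring)
  simpa only [mul_zero, zero_add, Complex.ofReal_re, EReal.coe_le_coe_iff] using this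

/-- the one-point functional: `Φ a (re σ) (re η)` is jointly psh for the background `0` -/
theorem Hol.psh_Φ (hR : Cmp R S) {X : E → PF S} {O : Set E} {s₁ : ℝ} (hX : Hol R X O s₁) :
    IsPsh (O ×ˢ strip (Set.Ioi s₁) ×ˢ Set.univ)
      fun e : E × ℂ × ℂ => ((X e.1).Φ 0 e.2.1.re e.2.2.re : EReal) :=
  hX.fam.psh_dep.congr fun e _ => by
    simp only [DS.dep, PF.Φ, LS.dp, hR.D]
    congr 3
    ext f
    exact ⟨fun h => ⟨h.1, S.nonpos f h.1, h.2⟩, fun h => ⟨h.1, h.2.2⟩⟩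

/-- `Dl k p c 0` is psh on the whole chart -/
theorem Hol.psh_Dl (hR : Cmp R S) {X : E → PF S} {O : Set E} (hO : IsOpen O) {s₁ : ℝ}
    (hX : Hol R X O s₁) (k : ℝ) (p : ℕ) (c : ℝ) : IsPsh O fun x => (X x).Dl k p c 0 := by
  have h1 := ((hX.psh_Φ hR).comp_clm ((ContinuousLinearMap.fst ℂ E ℂ).prod
    ((ContinuousLinearMap.snd ℂ E ℂ).prod ((c : ℂ) • ContinuousLinearMap.snd ℂ E ℂ)))).mono
    (D' := O ×ˢ strip (Set.Ioi s₁)) fun q hq => ⟨hq.1, hq.2, trivial⟩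
  have h2 : Tube O (Set.Ioi s₁) fun x s => ((X x).Φ 0 s (c * s) : EReal) :=
    h1.congr fun q _ => by simp
  refine (h2.legendre hO Set.ordConnected_Ioi Set.nonempty_Ioi (-kc k p c) 0).congr fun x hx => ?_
  simp only [PF.Dl, hX.s0 x hx]
  exact iInf_congr fun s => iInf_congr fun _ => by rw [← EReal.coe_add]; congr 1; ring





end Crest.Agent.X261.Two
end
end

-- ▼ part X261/En/Hol
section

/-!
# Row 261, EN (helper54), file `Hol`: the standard pole families depend holomorphically on the centre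

* `Xp C hG y` : the standard pole family as a total function of the centre;
* `hol_Xp : Two.Hol S.toDS (Xp C hG) (ball 0 1) 2`.
-/

set_option autoImplicit false
set_option linter.dupNamespace false

open Set Filter Topology Metric

namespace Crest.Agent.X261.En.HolF

open Crest.Agent.X261.Two Crest.Agent.X261.BT Crest.Agent.X261.Psh Crest.Agent.X261.Psh.Kis
open Crest.Agent.X261.Pole Crest.Agent.X261.Pole.PCh
open Crest.Agent.R275.Geo
open Crest.Agent.R281.Kp_487 (KP pot)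

noncomputable section

variable {n : ℕ} {M : Type} [TopologicalSpace M] {A : Atl n M} {p r : ℕ} {C : PCh A p r}
  {H : KP A}

/-- the barrier property along holomorphic discs -/
theorem mp' {S : DS M} (hG : Geo S H) {Γ : ℂ → Par p} (hΓ : Differentiable ℂ Γ)
    (hz : ∀ w : ℂ, ‖w‖ ≤ 1 → Γ w ∈ PO p) (V : ℂ → M → ℝ)
    (hV : S.JP V) (x : Cn p × Cn r) (hx : x ∈ PW p r)
    (h : ∀ w : ℂ, ‖w‖ = 1 → V w (C.kap (Γ w) x) ≤ C.gam H (Γ w) x) :
    V 0 (C.kap (Γ 0) x) ≤ C.gam H (Γ 0) x := by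
  set q : ℂ → Cn p × Cn r := fun w => ((Γ w).1 + (Γ w).2.1 x.1, x.2) with hq
  have hqm : ∀ w : ℂ, ‖w‖ ≤ 1 → q w ∈ (ball 0 2 ×ˢ ball 0 2 : Set (Cn p × Cn r)) := fun w hw =>
    mapsTo_par (x := (Γ w, x)) ⟨hz w hw, hx⟩
  have hqd : Differentiable ℂ q :=
    (hΓ.fst.add (hΓ.snd.fst.clm_apply (differentiable_const _))).prodMk (differentiable_const _)
  have hO : IsOpen (ball (0 : ℂ) 1 ×ˢ (A.e C.i).target) := isOpen_ball.prod (A.e C.i).open_target
  have hc : ContinuousOn (fun t : ℂ × Cn n => pot H (V t.1) C.i t.2)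
      (closedBall 0 1 ×ˢ (A.e C.i).target) := by
    refine ((H.sm C.i).continuousOn.comp continuousOn_snd fun t ht => ht.2).add ?_
    exact (hG.jc V hV).comp (f := fun t : ℂ × Cn n => (t.1, (A.e C.i).symm t.2))
      (continuousOn_fst.prodMk ((A.e C.i).continuousOn_symm.comp continuousOn_snd
        fun t ht => ht.2)) fun t ht => ⟨ht.1, mem_univ _⟩
  have h1 := isPsh_of_pshL hO (hc.mono (prod_mono ball_subset_closedBall subset_rfl))
    (hG.jp V hV C.i)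
  have h2 : IsPsh (ball (0 : ℂ) 1) fun w => ((pot H (V w) C.i (C.ψ (q w)) : ℝ) : EReal) :=
    Hol.comp_hol hO h1 (φ := fun w => (w, C.ψ (q w)))
      (differentiableOn_id.prodMk (C.hol.comp hqd.differentiableOn fun w hw =>
        hqm w (mem_ball_zero_iff.1 hw).le))
      fun w hw => ⟨hw, C.maps (hqm w (mem_ball_zero_iff.1 hw).le)⟩
  have h3 : IsPsh (ball (0 : ℂ) 1) fun w => (((Γ w).2.2.re : ℝ) : EReal) :=
    Hol.isPsh_re (H := fun w : ℂ => (Γ w).2.2) hΓ.snd.snd.differentiableOn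
  have h4 : ContinuousOn (fun w => pot H (V w) C.i (C.ψ (q w)) + (Γ w).2.2.re)
      (closedBall (0 : ℂ) 1) := by
    refine ContinuousOn.add (hc.comp (f := fun w => (w, C.ψ (q w))) (continuousOn_id.prodMk
      (C.hol.continuousOn.comp hqd.continuous.continuousOn fun w hw =>
        hqm w (mem_closedBall_zero_iff.1 hw))) fun w hw =>
          ⟨hw, C.maps (hqm w (mem_closedBall_zero_iff.1 hw))⟩)
      (Complex.continuous_re.comp hΓ.snd.snd.continuous).continuousOn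
  have h5 := IsPsh.max1 (isCompact_closedBall (0 : ℂ) 1) (usc_coe h4) (c := 0)
    (by rw [interior_closedBall _ one_ne_zero]
        exact (h2.add h3).congr fun w _ => (EReal.coe_add _ _).symm)
    (fun w hw hw' => by
      rw [interior_closedBall _ one_ne_zero, mem_ball_zero_iff, not_lt] at hw'
      have := h w (le_antisymm (mem_closedBall_zero_iff.1 hw) hw')
      rw [EReal.coe_le_coe_iff, pot_eq]
      simp only [PCh.kap, PCh.gam] at this
      linarith) 0 (mem_closedBall_self zero_le_one)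
  rw [EReal.coe_le_coe_iff, pot_eq] at h5
  simp only [hq] at h5
  simp only [PCh.kap, PCh.gam]
  linarith

variable (C) in
/-- the standard pole family as a total function of the centre -/
def Xp {S : ES M} (hG : Geo S.toDS H) (y : Cn p) : PF S.ls :=
  if h : ‖y‖ ≤ 1 then C.pf1 hG h else C.pf1 hG (y := 0) (by simp)

variable {S : ES M} (hG : Geo S.toDS H)

theorem Xp_eq {y : Cn p} (hy : ‖y‖ ≤ 1) : Xp C hG y = C.pf1 hG hy := dif_pos hy

theorem Xp_F {y : Cn p} (hy : ‖y‖ ≤ 1) (s h : ℝ) :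
    (Xp C hG y).F s h = C.F H y (rad s • 1) h := by rw [Xp_eq hG hy]; rfl

theorem Xp_F' {y : Cn p} (hy : ‖y‖ ≤ 1) :
    (Xp C hG y).F = fun s h => C.F H y (rad s • 1) h := by rw [Xp_eq hG hy]; rfl

theorem Xp_s0 (y : Cn p) : (Xp C hG y).s0 = 2 := by
  unfold Xp
  split_ifs <;> rfl

/-- the parameter map -/
def par (e : Cn p × ℂ × ℂ) : Par p := (e.1, Complex.exp (-e.2.1 / 2) • 1, e.2.2)

theorem par_diff : Differentiable ℂ (par (p := p)) := by
  unfold par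
  fun_prop

theorem par_mem {e : Cn p × ℂ × ℂ}
    (he : e ∈ ball (0 : Cn p) 1 ×ˢ strip (Ioi 2) ×ˢ (univ : Set ℂ)) : par e ∈ PO p := by
  have h1 := PO_rad (std' (mem_ball_zero_iff.1 he.1).le) (s := e.2.1.re) (le_of_lt he.2.1)
  rw [norm_smul, ← norm_cexp, Complex.norm_real, norm_norm] at h1
  change ‖e.1‖ + ‖Complex.exp (-e.2.1 / 2) • (1 : Cn p →L[ℂ] Cn p)‖ < 2
  rwa [norm_smul]

theorem isOpen_O : IsOpen (ball (0 : Cn p) 1 ×ˢ strip (Ioi 2) ×ˢ (univ : Set ℂ)) :=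
  isOpen_ball.prod ((isOpen_strip isOpen_Ioi).prod isOpen_univ)

theorem fam_par {R : DS M} (hG : Geo R H) :
    Two.Fam R (ball (0 : Cn p) 1 ×ˢ strip (Ioi 2) ×ˢ (univ : Set ℂ)) fun e =>
      Feas R 0 (PW p r) (C.kap (par e)) (C.gam H (par e)) := by
  have hc : Continuous fun z : (Cn p × ℂ × ℂ) × (Cn p × Cn r) => (par z.1, z.2) :=
    (par_diff.continuous.comp continuous_fst).prodMk continuous_snd
  have hm : MapsTo (fun z : (Cn p × ℂ × ℂ) × (Cn p × Cn r) => (par z.1, z.2))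
      ((ball (0 : Cn p) 1 ×ˢ strip (Ioi 2) ×ˢ (univ : Set ℂ)) ×ˢ PW p r) (PO p ×ˢ PW p r) :=
    fun z hz => ⟨par_mem hz.1, hz.2⟩
  have h1 := C.contOn_kap.comp hc.continuousOn hm
  have h2 := (C.contOn_gam H).comp hc.continuousOn hm
  refine fam_of_con R isOpen_O R.zero_mem isCompact_PW h1 h2 fun z v hz V hV x hx h => ?_
  have hd : Differentiable ℂ fun w : ℂ => par (z + w • v) :=
    par_diff.comp (f := fun w : ℂ => z + w • v) (by fun_prop)
  have := mp' (C := C) hG hd (fun w hw => par_mem (hz w hw)) V hV x hx h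
  rwa [zero_smul, add_zero] at this

theorem hol_Xp : Two.Hol S.toDS (Xp C hG) (ball 0 1) 2 := by
  refine ⟨fun x _ => Xp_s0 hG x, Two.Fam.congr (fam_par (C := C) hG) isOpen_O fun e he => ?_⟩
  ext f
  rw [mem_ofPred_eq, Xp_F hG (mem_ball_zero_iff.1 he.1).le, ← F_cexp]
  exact ⟨fun hf => ⟨hf.1, hf.2.2⟩, fun hf => ⟨hf.1, S.nonpos f hf.1, hf.2⟩⟩


end

end Crest.Agent.X261.En.HolF
end

-- ▼ part X261/En/Geo
section

/-!
# Row 261, EN (helper54), file `Geo`: geometry of the foliated charts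

* `dWt_ne`, `not_mem_Z`, `compl_eq` : the foliated charts cover the complement of `F.Z`;
* `dsc`, `plr`, `thin`, `bad_inv`;
* `lam`, `lam_psh`, `lam_eq` : the log-weight of the frame `dt`.
-/

set_option autoImplicit false
set_option linter.unusedSectionVars false
set_option linter.dupNamespace false

open Set Filter Topology Metric Matrix

namespace Crest.Agent.X261.En.Geo

open Crest.Agent.R275.Geo Crest.Agent.R275.Core144
open Crest.Agent.R273.Defs_333 Crest.Agent.R273.UCov_914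
open Crest.Agent.R273.Fock_243 (FI Gam)
open Crest.Agent.R281.ThnM_280 (SThM)
open Crest.Agent.X261.Psh Crest.Agent.X261.Ans Crest.Agent.X261.Lim
open Crest.Agent.X261.Top (HolV Tube FCh Fol dW upF Cod2)

noncomputable section

section Gen

variable {n p r : ℕ} {M : Type} [TopologicalSpace M] {B : Atl n M} {G : Type} [Group G]
  [MulAction G M] {𝒯 : Tube B G p} {ε : B.ι → M → FI n → ℂ}

theorem t_an (C : FCh 𝒯 r ε) {y : M} (hy : y ∈ C.φ.source) {i : B.ι} (hi : y ∈ (B.e i).source) :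
    AnalyticAt ℂ (fun z => (C.φ ((B.e i).symm z)).1) (B.e i y) :=
  Fol.holV_an C.φ.open_source C.hol₁ hy hi

theorem t_surj (C : FCh 𝒯 r ε) {y : M} (hy : y ∈ C.φ.source) :
    Function.Surjective (fderiv ℂ (fun z => (C.φ ((B.e C.i).symm z)).1) (B.e C.i y)) := by
  have h0 := (t_an C hy (C.sub hy)).differentiableAt.hasFDerivAt
  have hq := C.φ.open_target.mem_nhds (C.φ.map_source hy)
  have h1 := (C.hol'.differentiableAt hq).hasFDerivAt
  have e : B.e C.i (C.φ.symm (C.φ y)) = B.e C.i y := by rw [C.φ.left_inv hy]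
  rw [← e] at h0
  have h2 := (h0.comp (C.φ y) h1).congr_of_eventuallyEq (f₁ := Prod.fst) (by
    filter_upwards [hq] with q hq
    rw [Function.comp_apply, (B.e C.i).left_inv (C.sub (C.φ.map_target hq)), C.φ.right_inv hq])
  have h3 := h2.unique hasFDerivAt_fst
  rw [e] at h3
  intro w
  exact ⟨_, DFunLike.congr_fun h3 (w, 0)⟩

theorem dWt_ne (hn : p + r = n) (C : FCh 𝒯 r ε) {y : M} (hy : y ∈ C.φ.source) :
    dW B C.i (fun y => (C.φ y).1) y ≠ 0 := by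
  rw [Frb.Main.dW_eq (t_an C hy (C.sub hy)).differentiableAt]
  exact Frb.Main.wdg_row_ne hn (t_surj C hy)

theorem eps_ne (hn : p + r = n) (C : FCh 𝒯 r ε) {y : M} (hy : y ∈ C.φ.source) : ε C.i y ≠ 0 := by
  rw [C.gen y hy]
  exact smul_ne_zero (C.c_ne y hy) (dWt_ne hn C hy)

theorem dsc_of {Z : Set M} (h : Cod2 B Z) : Dsc (HA.of B) Z := h.2.2

theorem thin_of {S : Set M} (h : SThM B S) : Thin (HA.of B) S := h

theorem thin (𝒯 : Tube B G p) : Thin (HA.of B) (𝒯.M0ᶜ ∪ 𝒯.Bad) :=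
  thin_of (𝒯.thin.union 𝒯.bad_thin)

theorem bad_inv (𝒯 : Tube B G p) (g : G) (x : M) (hx : x ∈ 𝒯.M0ᶜ ∪ 𝒯.Bad) :
    g • x ∈ 𝒯.M0ᶜ ∪ 𝒯.Bad :=
  hx.imp (fun h h' => h (by simpa using 𝒯.inv g⁻¹ _ h')) (𝒯.bad_inv g x)

variable {L : LB B}

/-- the log-weight of the frame `dt` -/
def lam (h : HM L) (C : FCh 𝒯 r ε) (x : M) : ℝ :=
  Real.log (‖C.c x‖ ^ 2) + h.wt C.i (B.e C.i x)

theorem lam_def (h : HM L) (C : FCh 𝒯 r ε) {x : M} (hx : x ∈ C.φ.source) :
    lam h C x = 2 * Real.log ‖C.c x‖ - Real.log (h.w C.i x) := by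
  rw [lam, HM.wt, (B.e C.i).left_inv (C.sub hx), Real.log_pow]
  push_cast
  ring

theorem lam_psh (h : HM L) (C : FCh 𝒯 r ε) {O : Set M} (hO : IsOpen O) (hs : O ⊆ C.φ.source) :
    WP (HA.of B) (fun j => h.wt j) O fun x => ((-lam h C x : ℝ) : EReal) := by
  intro (j : B.ι)
  have hO' : IsOpen (ch (HA.of B) j O) := (B.e j).isOpen_inter_preimage_symm hO
  have k1 : DifferentiableOn ℂ (fun z => C.c ((B.e j).symm z)) (ch (HA.of B) j O) :=
    Brg.diffOn_of_hol fun x hx _ =>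
      (Brg.holAt_iff C.φ.open_source).1 C.c_hol x (hs hx) (C.sub (hs hx))
  have k2 : DifferentiableOn ℂ (fun z => L.g j C.i ((B.e j).symm z)) (ch (HA.of B) j O) :=
    DifferentiableOn.mono (L.hol j C.i) fun z hz => ⟨hz.1, C.sub (hs hz.2)⟩
  have k3 := k2.mul (k1.inv fun z hz => C.c_ne _ (hs hz.2))
  refine ((isPsh_log_norm hO' k3).smul zero_le_two).congr fun z hz => ?_
  have hj := (B.e j).map_target hz.1
  have hc : C.c ((B.e j).symm z) ≠ 0 := C.c_ne _ (hs hz.2)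
  have hg := L.ne_zero j C.i ((B.e j).symm z)
  have hz2 : (B.e j).symm z ∈ C.φ.source := hs hz.2
  have e := h.tr j C.i _ ⟨hj, C.sub hz2⟩
  change ((2 : ℝ) : EReal) * ENNReal.log ‖L.g j C.i ((B.e j).symm z) * (C.c ((B.e j).symm z))⁻¹‖ₑ =
    ((-lam h C ((B.e j).symm z) : ℝ) : EReal) + ((h.wt j z : ℝ) : EReal)
  rw [log_enorm_of_ne (mul_ne_zero hg (inv_ne_zero hc)), lam_def h C hz2, e, HM.wt, ← EReal.coe_mul, ← EReal.coe_add, norm_mul, norm_inv,
    Real.log_mul (norm_ne_zero_iff.2 hg) (inv_ne_zero (norm_ne_zero_iff.2 hc)), Real.log_inv,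
    Real.log_mul (pow_ne_zero 2 (norm_ne_zero_iff.2 hg)) (h.pos j _ hj).ne', Real.log_pow]
  congr 1
  push_cast
  ring

/-- comparison of the frames `dt`, `dt'` of two foliated charts through a third frame `df` -/
theorem lam_eq (hn : p + r = n) (h : HM L)
    (tr : ∀ i j, ∀ y ∈ (B.e i).source ∩ (B.e j).source,
      ε i y = (L.g i j y)⁻¹ • (Gam (Jm B i j y)ᵀ *ᵥ ε j y))
    (C C' : FCh 𝒯 r ε) {x : M} (hx : x ∈ C.φ.source) (hx' : x ∈ C'.φ.source) {f : M → Cn p}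
    (hf : DifferentiableAt ℂ (fun z => f ((B.e C'.i).symm z)) (B.e C'.i x)) {d d' : ℂ}
    (hd0 : d ≠ 0) (hd0' : d' ≠ 0)
    (hd : dW B C.i f x = d • dW B C.i (fun y => (C.φ y).1) x)
    (hd' : dW B C'.i f x = d' • dW B C'.i (fun y => (C'.φ y).1) x) :
    lam h C x - 2 * Real.log ‖d‖ = lam h C' x - 2 * Real.log ‖d'‖ := by
  have hij : x ∈ (B.e C.i).source ∩ (B.e C'.i).source := ⟨C.sub hx, C'.sub hx'⟩
  have h1 := tr _ _ x hij
  have h2 := Rn93.dW_tr hij hf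
  rw [hd, hd', Matrix.mulVec_smul] at h2
  rw [C.gen x hx, C'.gen x hx', Matrix.mulVec_smul, smul_smul] at h1
  have h3 : (d' * C.c x) • dW B C.i (fun y => (C.φ y).1) x =
      ((L.g C.i C'.i x)⁻¹ * C'.c x * d) • dW B C.i (fun y => (C.φ y).1) x := by
    rw [mul_smul, h1, mul_smul _ d, h2, smul_comm]
  have h4 := smul_left_injective ℂ (dWt_ne hn C hx) h3
  have hg := norm_ne_zero_iff.2 (L.ne_zero C.i C'.i x)
  have h5 := congrArg (fun a : ℂ => Real.log ‖a‖) h4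
  simp only [norm_mul, norm_inv] at h5
  rw [Real.log_mul (norm_ne_zero_iff.2 hd0') (norm_ne_zero_iff.2 (C.c_ne x hx)),
    Real.log_mul (mul_ne_zero (inv_ne_zero hg) (norm_ne_zero_iff.2 (C'.c_ne x hx')))
      (norm_ne_zero_iff.2 hd0),
    Real.log_mul (inv_ne_zero hg) (norm_ne_zero_iff.2 (C'.c_ne x hx')), Real.log_inv] at h5
  rw [lam_def h C hx, lam_def h C' hx', h.tr _ _ x hij,
    Real.log_mul (pow_ne_zero 2 hg) (h.pos _ x hij.1).ne', Real.log_pow]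
  push_cast
  linarith

/-- the same with `dt = b df`, `dt' = b' df` -/
theorem lam_sub (hn : p + r = n) (h : HM L)
    (tr : ∀ i j, ∀ y ∈ (B.e i).source ∩ (B.e j).source,
      ε i y = (L.g i j y)⁻¹ • (Gam (Jm B i j y)ᵀ *ᵥ ε j y))
    (C C' : FCh 𝒯 r ε) {x : M} (hx : x ∈ C.φ.source) (hx' : x ∈ C'.φ.source) {f : M → Cn p}
    (hf : DifferentiableAt ℂ (fun z => f ((B.e C'.i).symm z)) (B.e C'.i x)) {b b' : ℂ}
    (hb : dW B C.i (fun y => (C.φ y).1) x = b • dW B C.i f x)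
    (hb' : dW B C'.i (fun y => (C'.φ y).1) x = b' • dW B C'.i f x) :
    lam h C x - lam h C' x = Real.log (Complex.normSq b') - Real.log (Complex.normSq b) := by
  have h0 : b ≠ 0 := fun e => dWt_ne hn C hx (by rw [hb, e, zero_smul])
  have h0' : b' ≠ 0 := fun e => dWt_ne hn C' hx' (by rw [hb', e, zero_smul])
  have := lam_eq hn h tr C C' hx hx' hf (inv_ne_zero h0) (inv_ne_zero h0')
    (by rw [hb, inv_smul_smul₀ h0]) (by rw [hb', inv_smul_smul₀ h0'])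
  rw [norm_inv, norm_inv, Real.log_inv, Real.log_inv] at this
  rw [Complex.normSq_eq_norm_sq, Complex.normSq_eq_norm_sq, Real.log_pow, Real.log_pow]
  push_cast
  linarith

end Gen

section Cover

variable {n p r : ℕ} {X : Type} [TopologicalSpace X] {A : Atl n X} {G : Type} [Group G]
  {D : MonD A G}

theorem not_mem_Z (hn : p + r = n) (F : Fol D p) (C : FCh F.T r (upF D F.e)) {y : D.cov G}
    (hy : y ∈ C.φ.source) : y ∉ F.Z := fun h => eps_ne hn C hy (h C.i.1)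

/-- the inner parts of the foliated charts cover the complement of `F.Z` -/
theorem compl_eq [T2Space X] (hn : p + r = n) (F : Fol D p)
    (O : FCh F.T r (upF D F.e) → Set (D.cov G)) (h1 : ∀ C, O C ⊆ C.φ.source)
    (h2 : ∀ C, ∀ x ∈ C.φ.source, C.φ x = 0 → x ∈ O C) : (⋃ C, O C)ᶜ = F.Z := by
  ext y
  rw [mem_compl_iff, mem_iUnion]
  refine ⟨fun h => by_contra fun hy => h ?_, fun h ⟨C, hC⟩ => not_mem_Z hn F C (h1 C hC) h⟩
  obtain ⟨q, hq⟩ := (D.atl G).cover y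
  obtain ⟨C, k1, k2, -⟩ := Frb.Main.fch hn F.T (upF D F.e) q (fun S => F.tom.hol q.1 S)
    (fun y S hS => F.tom.deg q.1 _ S hS) (fun x' hx' y hy hyq => F.gen x' hx' q y hy hyq) hq
    ((Frb.Main.mem_Z F hq.1).not.1 hy) univ_mem
  exact ⟨C, h2 C y k1 k2⟩

theorem dsc_Z (hn : p + r = n) (F : Fol D p) : Dsc (HA.of (D.atl G)) F.Z :=
  dsc_of (Frb.Main.cod2 hn F)

theorem plr_Z (hn : p + r = n) (F : Fol D p) : Plr (HA.of (D.atl G)) F.Z := by
  intro (q : A.ι × G) z₀ hz₀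
  have hZ : ∀ z ∈ (A.e q.1).target, ((D.atl G).e q).symm z ∈ F.Z ↔
      F.e q.1 ((A.e q.1).symm z) = 0 := fun z hz =>
    Frb.Main.mem_Z F (i := q.1) (y := ((D.atl G).e q).symm z) ((A.e q.1).map_target hz)
  refine ⟨(A.e q.1).target, fun z => ENNReal.log ‖F.e q.1 ((A.e q.1).symm z)‖ₑ,
    (A.e q.1).open_target, hz₀, isPsh_log_norm (A.e q.1).open_target
      (differentiableOn_pi.2 fun S => (Frb.Main.e_an F q.1 S).differentiableOn),
    fun z hz => ?_, fun z _ hz h => by simp [(hZ z hz).1 h]⟩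
  have h1 := ((Frb.Main.cod2 hn F).2.1 q).dense_compl z
  rw [mem_closure_iff_frequently] at h1
  refine (h1.and_eventually ((A.e q.1).open_target.mem_nhds hz)).mono fun w hw => ?_
  exact (log_enorm_of_ne fun h => hw.1 ⟨hw.2, (hZ w hw.2).2 h⟩).trans_ne (EReal.coe_ne_bot _)

theorem dsc [T2Space X] (hn : p + r = n) (F : Fol D p)
    (O : FCh F.T r (upF D F.e) → Set (D.cov G)) (h1 : ∀ C, O C ⊆ C.φ.source)
    (h2 : ∀ C, ∀ x ∈ C.φ.source, C.φ x = 0 → x ∈ O C) : Dsc (HA.of (D.atl G)) (⋃ C, O C)ᶜ :=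
  compl_eq hn F O h1 h2 ▸ dsc_Z hn F

theorem plr [T2Space X] (hn : p + r = n) (F : Fol D p)
    (O : FCh F.T r (upF D F.e) → Set (D.cov G)) (h1 : ∀ C, O C ⊆ C.φ.source)
    (h2 : ∀ C, ∀ x ∈ C.φ.source, C.φ x = 0 → x ∈ O C) : Plr (HA.of (D.atl G)) (⋃ C, O C)ᶜ :=
  compl_eq hn F O h1 h2 ▸ plr_Z hn F

end Cover

end

end Crest.Agent.X261.En.Geo
end

-- ▼ part X261/Shp21/Core
section

/-!
# Row 261, EN shape instance (helper21), file `Core`

`Tr P H T π Φ U C` : the plaques `{t} × closed ball`, `t ∈ U`, of the plaque chart `P` lie in the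
fibres of `π` over `Φ t`, and control them (fibre Harnack with constant `C`).
Consequences: `Tr.shp` (`Law.Shp`), `Tr.crude` ((F2), (F3)), `inc_of`.
-/

set_option autoImplicit false

open Set Filter Topology Metric

namespace Crest.Agent.X261.Shp21

open Crest.Agent.X261.BT Crest.Agent.X261.Pole
open Crest.Agent.R275.Geo
open Crest.Agent.R281.Kp_487 (KP pot)

noncomputable section

variable {n : ℕ} {M : Type} [TopologicalSpace M] {A : Atl n M} {p r : ℕ}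

/-- the standard constraints of a plaque chart -/
def Fs (P : PCh A p r) (H : KP A) (y : Cn p) (s h : ℝ) : Set (M → ℝ) := P.F H y (rad s • 1) h

/-- (F2) -/
def F2 (T : Set M) (π : M → Cn p) (y : Cn p) (F : ℝ → ℝ → Set (M → ℝ)) (C₀ s₁ : ℝ) : Prop :=
  ∀ s ≥ s₁, ∀ h ≥ 0, ∀ f : M → ℝ,
    (∀ x ∈ T, ‖π x - y‖ ^ 2 ≤ Real.exp (C₀ - s) → f x ≤ -h - C₀) → f ∈ F s h

/-- (F3) -/
def F3 (H : KP A) (T : Set M) (π : M → Cn p) (y : Cn p) (F : ℝ → ℝ → Set (M → ℝ))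
    (C₀ r₀ s₁ : ℝ) : Prop :=
  ∀ s ≥ s₁, ∀ h ≥ 0, ∀ f : M → ℝ, PP H f → (∀ x, f x ≤ 0) → f ∈ F s h →
    ∀ x ∈ T, ‖π x - y‖ ≤ r₀ → f x ≤ -h + C₀ +
      h / (s - C₀) * Real.log (max (Real.exp (s + C₀) * ‖π x - y‖ ^ 2) 1)

variable {P : PCh A p r} {H : KP A} {T : Set M} {π : M → Cn p} {Φ : Cn p → Cn p} {U : Set (Cn p)}
  {C : ℝ} {y t : Cn p} {f : M → ℝ} {s h : ℝ}

theorem exp_neg_one_le : Real.exp (-1) ≤ 1 / 2 := by
  rw [Real.exp_neg, one_div]
  exact inv_anti₀ two_pos (by linarith [Real.add_one_le_exp 1])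

theorem sq_exp (s : ℝ) : Real.exp (-s / 2) ^ 2 = Real.exp (-s) := by
  rw [← Real.exp_nat_mul]; congr 1; push_cast; ring

theorem logmax_nonneg (a : ℝ) : 0 ≤ Real.log (max a 1) := Real.log_nonneg (le_max_right _ _)

theorem logmax_mono {a b : ℝ} (h : a ≤ b) : Real.log (max a 1) ≤ Real.log (max b 1) :=
  Real.log_le_log (lt_max_of_lt_right one_pos) (max_le_max_right _ h)

theorem mem_Fs : f ∈ Fs P H y s h ↔ ∀ t, ‖t - y‖ ≤ Real.exp (-s / 2) → ∀ w', ‖w'‖ ≤ 1 →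
    f (P.pt (t, w')) + P.rho H (t, w') ≤ -h := by
  rw [Fs, PCh.mem_F]
  constructor
  · intro hf t ht w' hw'
    have := hf ((rad s)⁻¹ • (t - y)) (by
      rw [norm_smul, norm_inv, norm_rad, inv_mul_le_iff₀ (Real.exp_pos _), mul_one]; exact ht) w' hw'
    simpa [smul_smul, mul_inv_cancel₀ (rad_ne s), inv_mul_cancel₀ (rad_ne s)] using this
  · intro hf w hw w' hw'
    refine hf _ ?_ w' hw'
    rw [add_sub_cancel_left, smul_apply, one_apply_eq_self,
      norm_smul, norm_rad]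
    exact mul_le_of_le_one_right (Real.exp_pos _).le hw

/-- three circles in the transverse coordinate -/
theorem key (hf : QP H univ f) (hf0 : f ≤ 0) (hy : ‖y‖ ≤ 1) (hs : 2 < s)
    (hF : f ∈ Fs P H y s h) (ht : ‖t - y‖ ≤ Real.exp (-1)) {w' : Cn r} (hw' : ‖w'‖ ≤ 1) :
    f (P.pt (t, w')) ≤ -h + 2 * P.bd H +
      h / (s - 2) * Real.log (max (Real.exp s * ‖t - y‖ ^ 2) 1) := by
  set m := max (Real.exp s * ‖t - y‖ ^ 2) 1 with hm
  have m0 : 0 < m := lt_max_of_lt_right one_pos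
  have hs2 : s - 2 ≠ 0 := (sub_pos.2 hs).ne'
  set β := h / (s - 2) with hβ
  have hb := P.bd_nonneg H
  have h1 : f ∈ P.F H y (rad 2 • 1) ((-P.bd H - β * 2) + β * 2) := by
    rw [sub_add_cancel]
    exact PCh.mem_F_bd (by rw [norm_smul, norm_rad]; exact PCh.std hy) hf0
  have h2 : f ∈ P.F H y (rad s • 1) ((-P.bd H - β * 2) + β * s) := by
    refine PCh.F_mono (fun w hw => ⟨w, hw, rfl⟩) ?_ hF
    have : β * (s - 2) = h := div_mul_cancel₀ _ hs2
    linarith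
  have h3 : Real.log m ≤ s - 2 := by
    rw [Real.log_le_iff_le_exp m0]
    refine max_le ?_ (Real.one_le_exp (by linarith))
    have := pow_le_pow_left₀ (norm_nonneg _) ht 2
    rw [← Real.exp_nat_mul] at this
    rw [sub_eq_add_neg s, Real.exp_add]
    refine mul_le_mul_of_nonneg_left (this.trans_eq ?_) (Real.exp_pos _).le
    congr 1; push_cast; ring
  have h4 : f ∈ Fs P H y (s - Real.log m) _ := PCh.three hf (PCh.std' hy) h1 h2
    (s := s - Real.log m) (by linarith) (by linarith [logmax_nonneg (Real.exp s * ‖t - y‖ ^ 2)])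
  have h5 : ‖t - y‖ ≤ Real.exp (-(s - Real.log m) / 2) := by
    refine le_of_sq_le_sq ?_ (Real.exp_pos _).le
    rw [sq_exp, neg_sub, Real.exp_sub, Real.exp_log m0, le_div_iff₀ (Real.exp_pos _), mul_comm]
    exact le_max_left _ _
  have h6 := mem_Fs.1 h4 t h5 w' hw'
  have h7 := (abs_le.1 (P.abs_rho_le H (q := (t, w')) (by
    have := norm_le_norm_add_norm_sub' t y
    linarith [exp_neg_one_le]) (hw'.trans (by norm_num)))).1
  have : β * (s - 2) = h := div_mul_cancel₀ _ hs2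
  nlinarith

/-- transverse data -/
structure Tr (P : PCh A p r) (H : KP A) (T : Set M) (π : M → Cn p) (Φ : Cn p → Cn p)
    (U : Set (Cn p)) (C : ℝ) : Prop where
  op : IsOpen U
  nn : 0 ≤ C
  pl : ∀ t ∈ U, ∀ w', ‖w'‖ ≤ 1 → P.pt (t, w') ∈ T ∧ π (P.pt (t, w')) = Φ t
  fh : ∀ v, QP H univ v → ∀ t ∈ U, ∀ b : ℝ, (∀ w', ‖w'‖ ≤ 1 → v (P.pt (t, w')) ≤ b) →
    ∀ x ∈ T, π x = Φ t → v x ≤ b + C

theorem ev_small {δ : ℝ} (hδ : 0 < δ) : ∀ᶠ s : ℝ in atTop, Real.exp (-s / 2) ≤ δ := by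
  filter_upwards [eventually_ge_atTop (-2 * Real.log δ)] with s hs
  rw [← Real.exp_log hδ]
  exact Real.exp_le_exp.2 (by linarith)

namespace Tr

/-- inner inclusion for a gauge `N` -/
theorem inn (D : Tr P H T π Φ U C) (hy : ‖y‖ ≤ 1) (hyU : y ∈ U) {N : Cn p → ℝ} {a : ℝ}
    (hN : ∀ᶠ t in 𝓝 y, N (Φ t) ≤ Real.exp a * ‖t - y‖ ^ 2) :
    ∀ᶠ s in atTop, ∀ h : ℝ, ∀ f : M → ℝ,
      (∀ x ∈ T, N (π x) ≤ Real.exp (a - s) → f x ≤ -h - P.bd H) → f ∈ Fs P H y s h := by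
  obtain ⟨δ, hδ, h1⟩ := Metric.nhds_basis_closedBall.eventually_iff.1
    (hN.and (D.op.mem_nhds hyU))
  filter_upwards [ev_small hδ, ev_small (δ := 1 / 2) (by norm_num)] with s hs hs' h f hf
  refine mem_Fs.2 fun t ht w' hw' => ?_
  obtain ⟨h2, h3⟩ := h1 (mem_closedBall_iff_norm.2 (ht.trans hs))
  obtain ⟨h4, h5⟩ := D.pl t h3 w' hw'
  have h6 := hf _ h4 (by
    rw [h5, sub_eq_add_neg, Real.exp_add, ← sq_exp]
    exact h2.trans (mul_le_mul_of_nonneg_left (pow_le_pow_left₀ (norm_nonneg _) ht 2)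
      (Real.exp_pos _).le))
  have h7 := (abs_le.1 (P.abs_rho_le H (q := (t, w')) (by
    have := norm_le_norm_add_norm_sub' t y
    linarith) (hw'.trans (by norm_num)))).2
  linarith

/-- outer estimate for a gauge `N` -/
theorem out (D : Tr P H T π Φ U C) (hy : ‖y‖ ≤ 1) (hyU : y ∈ U) (hm : map Φ (𝓝 y) = 𝓝 (Φ y))
    {N : Cn p → ℝ} {a : ℝ} (hN : ∀ᶠ t in 𝓝 y, ‖t - y‖ ^ 2 ≤ Real.exp a * N (Φ t)) :
    ∃ ρ > (0 : ℝ), ∀ s, 2 < s → ∀ h, 0 ≤ h → ∀ f, QP H univ f → f ≤ 0 → f ∈ Fs P H y s h →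
      ∀ x ∈ T, ‖π x - Φ y‖ ≤ ρ → f x ≤ -h + (C + 2 * P.bd H) +
        h / (s - 2) * Real.log (max (Real.exp (s + a) * N (π x)) 1) := by
  have h0 := image_mem_map (m := Φ) ((hN.and (D.op.mem_nhds hyU)).and
    (closedBall_mem_nhds y (Real.exp_pos (-1))))
  rw [hm] at h0
  obtain ⟨ρ, hρ, h1⟩ := Metric.nhds_basis_closedBall.mem_iff.1 h0
  refine ⟨ρ, hρ, fun s hs h hh f hf hf0 hF x hx h2 => ?_⟩
  obtain ⟨t, ⟨⟨h3, h4⟩, h5⟩, h6⟩ := h1 (mem_closedBall_iff_norm.2 h2)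
  have h7 := D.fh f hf t h4 _ (fun w' hw' =>
    key hf hf0 hy hs hF (mem_closedBall_iff_norm.1 h5) hw') x hx h6.symm
  have h8 : Real.exp s * ‖t - y‖ ^ 2 ≤ Real.exp (s + a) * N (π x) := by
    rw [Real.exp_add, mul_assoc, ← h6]
    exact mul_le_mul_of_nonneg_left h3 (Real.exp_pos _).le
  have h9 := mul_le_mul_of_nonneg_left (logmax_mono h8) (div_nonneg hh (sub_pos.2 hs).le)
  linarith

end Tr

/-- two-sided comparison near a point with invertible derivative -/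
theorem sharp {B L : Cn p →L[ℂ] Cn p} (hd : HasFDerivAt Φ L y) (hB : ∀ w, B (L w) = w) {e : ℝ}
    (he : 0 < e) : ∀ᶠ t in 𝓝 y, ‖B (Φ t - Φ y)‖ ^ 2 ≤ Real.exp e * ‖t - y‖ ^ 2 ∧
      ‖t - y‖ ^ 2 ≤ Real.exp e * ‖B (Φ t - Φ y)‖ ^ 2 := by
  set η := 1 - Real.exp (-e / 2) with hη
  have e1 : Real.exp (-e / 2) < 1 := Real.exp_lt_one_iff.2 (by linarith)
  have e0 := Real.exp_pos (-e / 2)
  have η0 : 0 < η := sub_pos.2 e1
  have h1 := (B.hasFDerivAt.comp y hd).isLittleO.def η0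
  have e2 : Real.exp e * Real.exp (-e / 2) ^ 2 = 1 := by
    rw [sq_exp, ← Real.exp_add, add_neg_cancel, Real.exp_zero]
  filter_upwards [h1] with t ht
  simp only [Function.comp, ContinuousLinearMap.comp_apply, hB, ← map_sub] at ht
  set a := ‖B (Φ t - Φ y)‖
  set b := ‖t - y‖
  have a0 : 0 ≤ a := norm_nonneg _
  have b0 : 0 ≤ b := norm_nonneg _
  have h2 : |a - b| ≤ η * b := (abs_norm_sub_norm_le _ _).trans ht
  obtain ⟨h3, h4⟩ := abs_le.1 h2
  have h5 : Real.exp (-e / 2) * b ≤ a := by rw [hη] at h3; linarith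
  have h6 : Real.exp (-e / 2) * a ≤ b := by
    have : a ≤ (2 - Real.exp (-e / 2)) * b := by rw [hη] at h4; linarith
    nlinarith [mul_le_mul_of_nonneg_left this e0.le, mul_nonneg (sq_nonneg (1 - Real.exp (-e / 2))) b0]
  have key : ∀ u v : ℝ, 0 ≤ u → Real.exp (-e / 2) * u ≤ v → u ^ 2 ≤ Real.exp e * v ^ 2 :=
    fun u v hu h => by
      have := mul_le_mul_of_nonneg_left (pow_le_pow_left₀ (by positivity) h 2) (Real.exp_pos e).le
      rwa [mul_pow, ← mul_assoc, e2, one_mul] at this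
  exact ⟨key a b a0 h6, key b a b0 h5⟩

theorem map_eq {B L : Cn p →L[ℂ] Cn p} (hd : HasStrictFDerivAt Φ L y) (hB : ∀ w, L (B w) = w) :
    map Φ (𝓝 y) = 𝓝 (Φ y) :=
  hd.map_nhds_eq_of_surj (LinearMap.range_eq_top.2 fun w => ⟨B w, hB w⟩)

theorem sq_op_le (B : Cn p →L[ℂ] Cn p) (w : Cn p) {a : ℝ} (ha : ‖B‖ ^ 2 ≤ a) :
    ‖B w‖ ^ 2 ≤ Real.exp a * ‖w‖ ^ 2 := by
  refine (pow_le_pow_left₀ (norm_nonneg _) (B.le_opNorm w) 2).trans ?_
  rw [mul_pow]
  exact mul_le_mul_of_nonneg_right (by linarith [Real.add_one_le_exp a]) (sq_nonneg _)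

namespace Tr

variable {B L : Cn p →L[ℂ] Cn p}

/-- the sharp shape -/
theorem shp (D : Tr P H T π Φ U C) (hy : ‖y‖ ≤ 1) (hyU : y ∈ U) (hd : HasStrictFDerivAt Φ L y)
    (hB : ∀ w, B (L w) = w) (hB' : ∀ w, L (B w) = w) :
    Law.Shp H T π (Φ y) B (C + 2 * P.bd H) (Fs P H y) := by
  have hb := P.bd_nonneg H
  have hC := D.nn
  refine ⟨fun e he => ?_, fun e he c c' hc hcc => ?_⟩
  · filter_upwards [D.inn hy hyU (N := fun z => ‖B (z - Φ y)‖ ^ 2)
      ((sharp hd.hasFDerivAt hB he).mono fun _ h => h.1)] with s hs h _ f hf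
    exact hs h f fun x hx h1 => (hf x hx h1).trans (by linarith)
  · obtain ⟨ρ, hρ, h1⟩ := D.out hy hyU (map_eq hd hB') (N := fun z => ‖B (z - Φ y)‖ ^ 2)
      ((sharp hd.hasFDerivAt hB he).mono fun _ h => h.2)
    refine ⟨ρ, hρ, ?_⟩
    filter_upwards [eventually_gt_atTop 2, eventually_ge_atTop (2 * c' / (c' - c))]
      with s hs hs' f hf hF x hx h2
    have h3 := h1 s hs (c * s) (by positivity) f hf.1.qp hf.2 hF x hx h2
    have h4 : c * s / (s - 2) ≤ c' := by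
      rw [div_le_iff₀ (sub_pos.2 hs)]
      rw [div_le_iff₀ (sub_pos.2 hcc)] at hs'
      linarith
    rw [mul_comm (Real.exp _)] at h3
    exact h3.trans (add_le_add_right (mul_le_mul_of_nonneg_right h4 (logmax_nonneg _)) _)

/-- the crude shape: (F2), (F3) -/
theorem crude (D : Tr P H T π Φ U C) (hy : ‖y‖ ≤ 1) (hyU : y ∈ U) (hd : HasStrictFDerivAt Φ L y)
    (hB : ∀ w, B (L w) = w) (hB' : ∀ w, L (B w) = w) :
    ∃ C₀ r₀ s₁ : ℝ, 0 < r₀ ∧ F2 T π (Φ y) (Fs P H y) C₀ s₁ ∧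
      F3 H T π (Φ y) (Fs P H y) C₀ r₀ s₁ := by
  have hb := P.bd_nonneg H
  have hC := D.nn
  set C₀ := C + 2 * P.bd H + 2 + ‖B‖ ^ 2 + ‖L‖ ^ 2 with hC₀
  have b0 := sq_nonneg ‖B‖
  have l0 := sq_nonneg ‖L‖
  have h0 := sharp hd.hasFDerivAt hB one_pos
  have e1 : Real.exp C₀ = Real.exp (C₀ - 1) * Real.exp 1 := by rw [← Real.exp_add, sub_add_cancel]
  obtain ⟨s₁, h1⟩ := eventually_atTop.1 (D.inn hy hyU (N := fun z => ‖z - Φ y‖ ^ 2) (a := C₀)
    (h0.mono fun t ht => by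
      have := sq_op_le L (B (Φ t - Φ y)) (a := C₀ - 1) (by linarith)
      rw [hB'] at this
      rw [e1, mul_assoc]
      exact this.trans (mul_le_mul_of_nonneg_left ht.1 (Real.exp_pos _).le)))
  obtain ⟨ρ, hρ, h2⟩ := D.out hy hyU (map_eq hd hB') (N := fun z => ‖z - Φ y‖ ^ 2) (a := C₀)
    (h0.mono fun t ht => by
      have := sq_op_le B (Φ t - Φ y) (a := C₀ - 1) (by linarith)
      rw [e1, mul_comm (Real.exp (C₀ - 1)), mul_assoc]
      exact ht.2.trans (mul_le_mul_of_nonneg_left this (Real.exp_pos _).le))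
  refine ⟨C₀, ρ, max s₁ (C₀ + 1), hρ, fun s hs h _ f hf => ?_, fun s hs h hh f hf hf0 hF x hx h3 => ?_⟩
  · exact h1 s ((le_max_left _ _).trans hs) h f fun x hx h4 => (hf x hx h4).trans (by linarith)
  · have h4 : C₀ + 1 ≤ s := (le_max_right _ _).trans hs
    have h5 := h2 s (by linarith) h hh f hf.qp hf0 hF x hx h3
    have h6 : h / (s - 2) ≤ h / (s - C₀) := div_le_div_of_nonneg_left hh (by linarith) (by linarith)
    have h7 := mul_le_mul_of_nonneg_right h6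
      (logmax_nonneg (Real.exp (s + C₀) * ‖π x - Φ y‖ ^ 2))
    linarith

end Tr

/-- the field `inc` from (F3) and (F2) -/
theorem inc_of {F F' : ℝ → ℝ → Set (M → ℝ)} {C₀ C₀' r₀ s₁ s₁' c : ℝ} (hr : 0 < r₀)
    (h3 : F3 H T π y F C₀ r₀ s₁) (h2 : F2 T π y F' C₀' s₁') (hc : 0 < c) :
    ∃ μ τ : ℝ, ∀ᶠ s in atTop, ∀ f ∈ QQ H, f ∈ F s (c * s) → f ∈ F' (s + μ) (c * s - τ) := by
  refine ⟨C₀ + C₀', C₀ + C₀', ?_⟩
  filter_upwards [eventually_ge_atTop s₁, eventually_ge_atTop (s₁' - (C₀ + C₀')),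
    eventually_ge_atTop ((C₀ + C₀') / c), eventually_ge_atTop 0,
    (tendsto_atTop_add_const_right _ C₀ tendsto_id).eventually (ev_small hr)]
    with s k1 k2 k3 k4 k5 f hf hF
  rw [div_le_iff₀ hc] at k3
  refine h2 _ (by linarith) _ (by linarith) f fun x hx h4 => ?_
  rw [show C₀' - (s + (C₀ + C₀')) = -(s + C₀) by ring] at h4
  have h5 := h3 s k1 (c * s) (by positivity) f hf.1 hf.2 hF x hx
    ((le_of_sq_le_sq (by rwa [sq_exp]) (Real.exp_pos _).le).trans k5)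
  rw [max_eq_right (by
    have := mul_le_mul_of_nonneg_left h4 (Real.exp_pos (s + C₀)).le
    rwa [← Real.exp_add, add_neg_cancel, Real.exp_zero] at this), Real.log_one] at h5
  linarith

end

end Crest.Agent.X261.Shp21
end

-- ▼ part X261/BT/DiscF
section

/-!
# X261, BT (helper19), DISC: Fubini for the mixed Monge-Ampere measure, Weyl's lemma

* `DiscF.fubini` : `ma (g(t), u₁, …, uₙ) = ∂∂̄g dt ⊗ ma (u₁(t,·), …, uₙ(t,·))`;
* `DiscF.weyl`   : continuous weakly subharmonic functions have sub-mean values.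
-/

set_option autoImplicit false
set_option linter.unusedSectionVars false

open Set Filter Topology Complex MeasureTheory Metric Function Equiv
open scoped ContDiff Matrix ComplexConjugate ComplexOrder Convolution

namespace Crest.Agent.X261.BT.DiscF

open Crest.Agent.R275.Geo
open Crest.Agent.R273.Hess_333
open Crest.Agent.R281.Rich_710 (PshL dav lvE_smul exists_cont_ext unif_near)
open Crest.Agent.R257.HoB_843 (lvE lvE_comp)
open Crest.Agent.R273.YauCh_635 (two_le_inf)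

noncomputable section

variable {n : ℕ}

/-! ### Weyl's lemma -/

theorem fd2_apply {E : Type*} [NormedAddCommGroup E] [NormedSpace ℝ E] {f : E → ℝ}
    (hf : ContDiff ℝ ∞ f) (x v w : E) :
    fderiv ℝ (fun y => fderiv ℝ f y w) x v = fderiv ℝ (fderiv ℝ f) x v w := by
  have h1 : DifferentiableAt ℝ (fderiv ℝ f) x :=
    ((hf.fderiv_right (m := ∞) (by simp)).differentiable (by simp)) x
  rw [fderiv_clm_apply h1 (differentiableAt_const w)]
  simp

theorem lvE_one (f : ℂ → ℝ) (x v : ℂ) : lvE f x v = ‖v‖ ^ 2 * lvE f x 1 := by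
  have e1 : v = v.re • (1 : ℂ) + v.im • I := by simp [re_add_im]
  have e2 : I • v = (-v.im) • (1 : ℂ) + v.re • I := by apply Complex.ext <;> simp
  unfold lvE
  rw [e2, Complex.sq_norm, normSq_apply, smul_eq_mul, mul_one]
  generalize v.re = a at *
  generalize v.im = b at *
  rw [e1]
  simp only [map_add, map_smul, _root_.add_apply, _root_.smul_apply, smul_eq_mul]
  ring

theorem fd_conv {g ρ : ℂ → ℝ} (hg : Continuous g) (hρ : ContDiff ℝ ∞ ρ) (hc : HasCompactSupport ρ)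
    (w : ℂ) : (fun x => fderiv ℝ (g ⋆[ContinuousLinearMap.lsmul ℝ ℝ, volume] ρ) x w) =
      g ⋆[ContinuousLinearMap.lsmul ℝ ℝ, volume] fun a => fderiv ℝ ρ a w := by
  funext x
  rw [(hc.hasFDerivAt_convolution_right _ hg.locallyIntegrable (hρ.of_le (by simp)) x).fderiv,
    convolution_precompR_apply _ hg.locallyIntegrable (hc.fderiv ℝ) (hρ.continuous_fderiv (by simp))]

theorem lvE_conv {g ρ : ℂ → ℝ} (hg : Continuous g) (hρ : ContDiff ℝ ∞ ρ) (hc : HasCompactSupport ρ)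
    (x : ℂ) : lvE (g ⋆[ContinuousLinearMap.lsmul ℝ ℝ, volume] ρ) x 1 =
      ∫ y, lvE (fun y => ρ (x - y)) y 1 * g y := by
  have hs : ContDiff ℝ ∞ (g ⋆[ContinuousLinearMap.lsmul ℝ ℝ, volume] ρ) :=
    hc.contDiff_convolution_right _ hg.locallyIntegrable hρ
  have s1 : ∀ w, ContDiff ℝ ∞ fun a => fderiv ℝ ρ a w := fun w =>
    (hρ.fderiv_right (m := ∞) (by simp)).clm_apply contDiff_const
  have c1 : ∀ w, HasCompactSupport fun a => fderiv ℝ ρ a w := fun w => hc.fderiv_apply ℝ w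
  have h1 : ∀ w, fderiv ℝ (fderiv ℝ (g ⋆[ContinuousLinearMap.lsmul ℝ ℝ, volume] ρ)) x w w =
      ∫ y, g y * fderiv ℝ (fderiv ℝ ρ) (x - y) w w := fun w => by
    rw [← fd2_apply hs, fd_conv hg hρ hc, congrFun (fd_conv hg (s1 w) (c1 w) w) x]
    simp only [fd2_apply hρ]
    rfl
  have i1 : ∀ w, Integrable fun y => g y * fderiv ℝ (fderiv ℝ ρ) (x - y) w w := fun w => by
    simp only [← fd2_apply hρ]
    exact ((c1 w).fderiv_apply ℝ w).convolutionExists_right (ContinuousLinearMap.lsmul ℝ ℝ)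
      hg.locallyIntegrable (((s1 w).continuous_fderiv (by simp)).clm_apply continuous_const) x
  have h2 : ∀ y, lvE (fun y => ρ (x - y)) y 1 = lvE ρ (x - y) 1 := fun y => by
    have h3 := lvE_comp (T := fun y => x - y) (u := ρ) (z := y) (by fun_prop)
      (hρ.contDiffAt.of_le two_le_inf) 1
    have h4 : fderiv ℂ (fun y => x - y) y = -ContinuousLinearMap.id ℂ ℂ :=
      ((hasFDerivAt_id y).const_sub x).fderiv
    rw [h4, lvE_one ρ] at h3
    simpa [Function.comp_def] using h3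
  simp only [h2]
  unfold lvE
  rw [h1, h1, ← integral_add (i1 _) (i1 _), ← integral_const_mul]
  exact integral_congr_ae (Eventually.of_forall fun y => by ring)

theorem weyl {D : Set ℂ} (hD : IsOpen D) {e : ℂ → ℝ} (he : ContinuousOn e D)
    (h : ∀ χ : ℂ → ℝ, ContDiff ℝ ∞ χ → Tst D χ → (∀ t, 0 ≤ χ t) → 0 ≤ ∫ t in D, lvE χ t 1 * e t) :
    PshL D e := by
  refine PL.of_local fun z hz => ?_
  obtain ⟨r, hr, hb, g, hg, hge⟩ := exists_cont_ext hD he hz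
  have hs : ball z (r / 2) ⊆ ball z r := ball_subset_ball (by linarith)
  refine ⟨ball z (r / 2), mem_ball_self (half_pos hr),
    PL.of_unif isOpen_ball (he.mono (hs.trans hb)) fun ε hε => ?_⟩
  obtain ⟨s, hs0, h1⟩ := unif_near (isCompact_closedBall z (r / 2)) (fun a _ => hg.continuousAt) hε
  have hm : 0 < min s (r / 2) := lt_min hs0 (half_pos hr)
  let φ : ContDiffBump (0 : ℂ) := ⟨min s (r / 2) / 2, min s (r / 2), half_pos hm, half_lt_self hm⟩
  have hρ : ContDiff ℝ ∞ (φ.normed volume) := φ.contDiff_normed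
  have hc := φ.hasCompactSupport_normed (μ := volume)
  have hF : ContDiff ℝ ∞ (g ⋆[ContinuousLinearMap.lsmul ℝ ℝ, volume] φ.normed volume) :=
    hc.contDiff_convolution_right _ hg.locallyIntegrable hρ
  refine ⟨_, hF.continuous.continuousOn, PL.of_lvE isOpen_ball fun x hx =>
    ⟨hF.contDiffAt.of_le two_le_inf, fun v => ?_⟩, fun x hx => ?_⟩
  · rw [lvE_one, lvE_conv hg hρ hc]
    refine mul_nonneg (sq_nonneg _) ?_
    have hK : closedBall x (r / 2) ⊆ ball z r :=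
      closedBall_subset_ball' (by linarith [mem_ball.1 hx])
    have h0 : ∀ y, y ∉ closedBall x (r / 2) → φ.normed volume (x - y) = 0 := fun y hy => by
      refine notMem_support.1 ?_
      rw [φ.support_normed_eq, mem_ball_zero_iff, norm_sub_rev, not_lt]
      rw [mem_closedBall, dist_eq_norm, not_le] at hy
      exact (min_le_right _ _).trans hy.le
    have hχ : ContDiff ℝ ∞ fun y => φ.normed volume (x - y) :=
      hρ.comp (contDiff_const.sub contDiff_id)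
    have h2 : ∀ y, y ∉ closedBall x (r / 2) → lvE (fun y => φ.normed volume (x - y)) y 1 = 0 :=
      fun y hy => by
        have h3 : (fun y => φ.normed volume (x - y)) =ᶠ[𝓝 y] fun _ => 0 :=
          eventually_of_mem (isClosed_closedBall.isOpen_compl.mem_nhds hy) h0
        unfold lvE
        rw [h3.fderiv.fderiv_eq]
        simp
    have h3 := h _ hχ (Tst.of_cpt hχ.continuous (isCompact_closedBall x (r / 2)) (hK.trans hb) h0)
      fun y => φ.nonneg_normed _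
    rw [setIntegral_eq_integral_of_forall_compl_eq_zero fun y hy => by
      rw [h2 y fun h4 => hy (hb (hK h4)), zero_mul]] at h3
    refine h3.trans_eq (integral_congr_ae (Eventually.of_forall fun y => ?_))
    by_cases hy : y ∈ closedBall x (r / 2)
    · simp only [hge y (hK hy)]
    · simp only [h2 y hy, zero_mul]
  · have e : (g ⋆[ContinuousLinearMap.lsmul ℝ ℝ, volume] φ.normed volume) x =
        (φ.normed volume ⋆[ContinuousLinearMap.lsmul ℝ ℝ, volume] g) x := by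
      rw [convolution_lsmul, convolution_lsmul_swap]
      simp only [smul_eq_mul, mul_comm]
    rw [e, ← hge x (hs hx), ← Real.dist_eq]
    exact φ.dist_normed_convolution_le hg.aestronglyMeasurable fun y hy =>
      h1 x (ball_subset_closedBall hx) y (ball_subset_ball (min_le_left _ _) hy)

/-! ### the smooth case -/

theorem md_cons (γ : ℂ) (X : MC (n + 1)) (hX : ∀ a b, X a b = if a = 0 ∧ b = 0 then γ else 0)
    (G : Fin n → MC (n + 1)) :
    md (Fin.cons X G) = γ * md fun k => (G k).submatrix Fin.succ Fin.succ := by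
  have hs : ∀ e : Perm (Fin n), sgn (Perm.decomposeFin.symm (0, e)) = sgn e := fun e => by
    simp [sgn]
  unfold md
  rw [← Perm.decomposeFin.symm.sum_comp, Fintype.sum_prod_type, Finset.sum_eq_single 0
    (fun p _ hp => by simp [Fin.prod_univ_succ, hX, hp]) (by simp), Finset.mul_sum]
  refine Finset.sum_congr rfl fun s _ => ?_
  rw [← Perm.decomposeFin.symm.sum_comp, Fintype.sum_prod_type, Finset.sum_eq_single 0
    (fun p _ hp => by simp [Fin.prod_univ_succ, hX, hp]) (by simp), Finset.mul_sum]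
  refine Finset.sum_congr rfl fun t _ => ?_
  rw [hs, hs, Fin.prod_univ_succ]
  simp [hX]
  ring

theorem fd2_aff {E F : Type*} [NormedAddCommGroup E] [NormedSpace ℝ E] [NormedAddCommGroup F]
    [NormedSpace ℝ F] {u : F → ℝ} (hu : ContDiff ℝ ∞ u) (c : F) (J : E →L[ℝ] F) (z v w : E) :
    fderiv ℝ (fderiv ℝ fun y => u (c + J y)) z v w = fderiv ℝ (fderiv ℝ u) (c + J z) (J v) (J w) := by
  have h1 : ∀ {f : F → ℝ}, ContDiff ℝ ∞ f → ∀ y a, fderiv ℝ (fun y => f (c + J y)) y a =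
      fderiv ℝ f (c + J y) (J a) := fun hf y a => by
    exact DFunLike.congr_fun
      ((hf.differentiable (by simp) _).hasFDerivAt.comp y (J.hasFDerivAt.const_add c)).fderiv a
  have hs : ContDiff ℝ ∞ fun y => u (c + J y) := hu.comp (contDiff_const.add J.contDiff)
  have h2 : ContDiff ℝ ∞ fun y => fderiv ℝ u y (J w) :=
    (hu.fderiv_right (m := ∞) (by simp)).clm_apply contDiff_const
  rw [← fd2_apply hs, ← fd2_apply hu, ← h1 h2]
  simp only [h1 hu]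

/-- the inclusion of the fibre -/
def inr (n : ℕ) : Cn n →L[ℝ] Cn (n + 1) :=
  (jLL.comp (ContinuousLinearMap.inr ℂ ℂ (Cn n))).restrictScalars ℝ

theorem jL_eq (t : ℂ) (z : Cn n) : jL t z = jL t 0 + inr n z := by
  ext a
  refine Fin.cases ?_ (fun a => ?_) a <;> simp [inr]

theorem inr_single (a : Fin n) (c : ℂ) :
    inr n (EuclideanSpace.single a c) = EuclideanSpace.single a.succ c := by
  ext b
  refine Fin.cases ?_ (fun b => ?_) b <;> simp [inr, (Fin.succ_ne_zero a).symm]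

theorem sm_jL (t : ℂ) : ContDiff ℂ ∞ (jL (n := n) t) :=
  jLL.contDiff.comp (contDiff_const.prodMk contDiff_id)

theorem sm_sl {u : Cn (n + 1) → ℝ} (hu : ContDiff ℝ ∞ u) (t : ℂ) :
    ContDiff ℝ ∞ fun z => u (jL t z) := hu.comp ((sm_jL t).restrict_scalars ℝ)

theorem hess_sl {u : Cn (n + 1) → ℝ} (hu : ContDiff ℝ ∞ u) (t : ℂ) (z : Cn n) :
    hess (fun z => u (jL t z)) z = (hess u (jL t z)).submatrix Fin.succ Fin.succ := by
  rw [Bal.hess_eq_hs (sm_sl hu t).contDiffAt, Bal.hess_eq_hs hu.contDiffAt]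
  ext a b
  simp only [Bal.hs, Matrix.of_apply, Matrix.submatrix_apply, jL_eq t z,
    show (fun z => u (jL t z)) = fun z => u (jL t 0 + inr n z) from funext fun z => by rw [← jL_eq],
    fd2_aff hu, inr_single]

/-- the first coordinate -/
def p0 (n : ℕ) : Cn (n + 1) →L[ℝ] ℂ := (EuclideanSpace.proj 0 : Cn (n + 1) →L[ℂ] ℂ).restrictScalars ℝ

theorem sm_p0 {g : ℂ → ℝ} (hg : ContDiff ℝ ∞ g) : ContDiff ℝ ∞ fun p : Cn (n + 1) => g (p 0) :=
  hg.comp (p0 n).contDiff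

theorem hess_p0 {g : ℂ → ℝ} (hg : ContDiff ℝ ∞ g) (p : Cn (n + 1)) (a b : Fin (n + 1)) :
    hess (fun p : Cn (n + 1) => g (p 0)) p a b =
      if a = 0 ∧ b = 0 then (lvE g (p 0) 1 : ℂ) else 0 := by
  have h1 : ∀ (a : Fin (n + 1)) (c : ℂ), p0 n (EuclideanSpace.single a c) = if a = 0 then c else 0 :=
    fun a c => by simp [p0, eq_comm]
  have h2 := (hg.contDiffAt (x := p 0)).isSymmSndFDerivAt (by simp; exact two_le_inf)
  have e : ∀ v w, fderiv ℝ (fderiv ℝ fun p : Cn (n + 1) => g (p 0)) p v w =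
      fderiv ℝ (fderiv ℝ g) (p 0) (p0 n v) (p0 n w) := fun v w => by
    have h3 := fd2_aff hg 0 (p0 n) p v w
    simp only [zero_add] at h3
    exact h3
  rw [Bal.hess_eq_hs (sm_p0 hg).contDiffAt]
  simp only [Bal.hs, Matrix.of_apply, e, h1]
  by_cases ha : a = 0 <;> by_cases hb : b = 0 <;> simp [ha, hb, lvE, h2.eq 1 I]

theorem mh_cons {g : ℂ → ℝ} (hg : ContDiff ℝ ∞ g) {v : Fin n → Cn (n + 1) → ℝ}
    (hv : ∀ k, ContDiff ℝ ∞ (v k)) (t : ℂ) (z : Cn n) :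
    mh (Fin.cons (fun p => g (p 0)) v) (jL t z) = lvE g t 1 * mh (fun k z => v k (jL t z)) z := by
  have e : (fun k => hess ((Fin.cons (fun p => g (p 0)) v : Fin (n + 1) → Cn (n + 1) → ℝ) k)
      (jL t z)) = Fin.cons (hess (fun p : Cn (n + 1) => g (p 0)) (jL t z))
        fun k => hess (v k) (jL t z) := funext fun k => Fin.cases rfl (fun _ => rfl) k
  unfold mh
  rw [e, md_cons _ _ (hess_p0 hg _), jL_zero, re_ofReal_mul]
  simp only [hess_sl (hv _)]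

/-- the identification as an isometry -/
def jI (n : ℕ) : WithLp 2 (ℂ × Cn n) ≃ₗᵢ[ℝ] Cn (n + 1) where
  toFun p := jL p.ofLp.1 p.ofLp.2
  invFun w := WithLp.toLp 2 (w 0, zc w)
  map_add' _ _ := by ext a; refine Fin.cases rfl (fun _ => rfl) a
  map_smul' _ _ := by ext a; refine Fin.cases rfl (fun _ => rfl) a
  left_inv _ := rfl
  right_inv w := jL_zc w
  norm_map' p := by
    rw [← sq_eq_sq₀ (norm_nonneg _) (norm_nonneg _), WithLp.prod_norm_sq_eq_of_L2,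
      EuclideanSpace.norm_sq_eq, EuclideanSpace.norm_sq_eq, Fin.sum_univ_succ]
    rfl

theorem mp_jL : MeasurePreserving (fun p : ℂ × Cn n => jL p.1 p.2) (volume.prod volume) volume :=
  (jI n).measurePreserving.comp (WithLp.volume_preserving_toLp ℂ (Cn n))

theorem me_jL : MeasurableEmbedding fun p : ℂ × Cn n => jL p.1 p.2 :=
  (jI n).toHomeomorph.measurableEmbedding.comp (MeasurableEquiv.toLp 2 (ℂ × Cn n)).measurableEmbedding

theorem fub_smooth {g : ℂ → ℝ} (hg : ContDiff ℝ ∞ g) {v : Fin n → Cn (n + 1) → ℝ}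
    (hv : ∀ k, ContDiff ℝ ∞ (v k)) {O : Set (Cn (n + 1))} {φ : Cn (n + 1) → ℝ} (hφ : Tst O φ) :
    Integrable (fun t => lvE g t 1 * ∫ z, φ (jL t z) * mh (fun k z => v k (jL t z)) z) ∧
      ∫ p, φ p * mh (Fin.cons (fun p => g (p 0)) v) p =
        ∫ t, lvE g t 1 * ∫ z, φ (jL t z) * mh (fun k z => v k (jL t z)) z := by
  have h1 := (mp_jL.integrable_comp_emb me_jL).2 (int_mh (v := Fin.cons (fun p => g (p 0)) v)
    (fun k => Fin.cases (sm_p0 hg) hv k) hφ)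
  have e : ∀ t, ∫ z, φ (jL t z) * mh (Fin.cons (fun p => g (p 0)) v) (jL t z) =
      lvE g t 1 * ∫ z, φ (jL t z) * mh (fun k z => v k (jL t z)) z := fun t => by
    rw [← integral_const_mul]
    exact integral_congr_ae (Eventually.of_forall fun z => by simp only [mh_cons hg hv]; ring)
  refine ⟨h1.integral_prod_left.congr (Eventually.of_forall e), ?_⟩
  rw [← mp_jL.integral_comp me_jL]
  exact (integral_prod _ h1).trans (integral_congr_ae (Eventually.of_forall e))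

/-! ### the general case -/

theorem cont_jL : Continuous fun p : ℂ × Cn n => jL p.1 p.2 := jLL.continuous

theorem cont_zc : Continuous (zc (n := n)) := zcL.continuous

theorem isOpen_pr {D : Set ℂ} (hD : IsOpen D) {Om : Set (Cn n)} (hOm : IsOpen Om) :
    IsOpen {p : Cn (n + 1) | p 0 ∈ D ∧ zc p ∈ Om} :=
  (hD.preimage (p0 n).continuous).inter (hOm.preimage cont_zc)

theorem tuo_slice {D : Set ℂ} (hD : IsOpen D) {K : Set (Cn n)} (hK : IsCompact K)
    {f : Cn (n + 1) → ℝ} (hf : ContinuousOn f {p | p 0 ∈ D ∧ zc p ∈ K}) {t : ℂ} (ht : t ∈ D) :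
    TendstoUniformlyOn (fun s z => f (jL s z)) (fun z => f (jL t z)) (𝓝 t) K := fun w hw => by
  obtain ⟨V, hV, h⟩ := hK.mem_uniformity_of_prod (f := fun s z => f (jL s z)) (s := D)
    (hf.comp cont_jL.continuousOn fun p hp => hp) ht (symm_le_uniformity hw)
  rw [hD.nhdsWithin_eq ht] at hV
  exact eventually_of_mem hV h

section

variable {D : Set ℂ} (hD : IsOpen D) {Om : Set (Cn n)} (hOm : IsOpen Om)
  {u : Fin n → Cn (n + 1) → ℝ} (hu : ∀ k, CP {p | p 0 ∈ D ∧ zc p ∈ Om} (u k))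
  {φ : Cn (n + 1) → ℝ} (hφ : Tst {p | p 0 ∈ D ∧ zc p ∈ Om} φ)
include hD hOm hu hφ

omit hφ in
theorem cp_sl {t : ℂ} (ht : t ∈ D) (k : Fin n) : CP Om fun z => u k (jL t z) :=
  (hu k).comp (isOpen_pr hD hOm) hOm ((sm_jL t).differentiable (by simp)).differentiableOn
    fun _ hz => ⟨ht, hz⟩

omit hD hOm hu hφ in
theorem zero_sl {t : ℂ} {z : Cn n} (h : t ∉ p0 n '' tsupport φ ∨ z ∉ zc '' tsupport φ) :
    φ (jL t z) = 0 :=
  image_eq_zero_of_notMem_tsupport fun h1 => h.elim (fun h2 => h2 ⟨_, h1, rfl⟩)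
    fun h2 => h2 ⟨_, h1, rfl⟩

/-- the fibre integral is a test function -/
theorem tst_fib : Tst D fun t => ∫ z, φ (jL t z) ∂ma Om fun k z => u k (jL t z) := by
  have hK1 : IsCompact (p0 n '' tsupport φ) := hφ.cpt.image (p0 n).continuous
  have hK2 : IsCompact (zc '' tsupport φ) := hφ.cpt.image cont_zc
  have s1 : p0 n '' tsupport φ ⊆ D := by rintro _ ⟨p, hp, rfl⟩; exact (hφ.sub hp).1
  have s2 : zc '' tsupport φ ⊆ Om := by rintro _ ⟨p, hp, rfl⟩; exact (hφ.sub hp).2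
  have h0 : ∀ t, t ∉ p0 n '' tsupport φ →
      ∫ z, φ (jL t z) ∂(ma Om fun k z => u k (jL t z)) = 0 := fun t ht => by
    simp [zero_sl (Or.inl ht)]
  have hc : ∀ t, Continuous fun z => φ (jL t z) := fun t => hφ.cont.comp (sm_jL t).continuous
  refine Tst.of_cpt (continuous_iff_continuousAt.2 fun t => ?_) hK1 s1 h0
  by_cases ht : t ∈ D
  · refine ma_tendsto' hOm (cp_sl hD hOm hu ht)
      (Tst.of_cpt (hc t) hK2 s2 fun z hz => zero_sl (Or.inr hz))
      (eventually_of_mem (hD.mem_nhds ht) fun s hs => cp_sl hD hOm hu hs)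
      (fun k => (tendstoLocallyUniformlyOn_iff_forall_isCompact hOm).2 fun K hKO hK =>
        tuo_slice hD hK ((hu k).1.mono fun p hp => ⟨hp.1, hKO hp.2⟩) ht) hK2 s2
      (Eventually.of_forall fun s => ⟨hc s, fun z hz => zero_sl (Or.inr hz)⟩)
      (fun z hz => zero_sl (Or.inr hz)) (tuo_slice hD hK2 hφ.cont.continuousOn ht)
  · exact continuousAt_const.congr (f := fun _ => (0 : ℝ)) (eventually_of_mem
      (hK1.isClosed.isOpen_compl.mem_nhds fun h => ht (s1 h)) fun s hs => (h0 s hs).symm)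

theorem fubini0 {g : ℂ → ℝ} (hg : ContDiff ℝ ∞ g) (h0 : ∀ t ∈ D, 0 ≤ lvE g t 1) :
    ∫ p, φ p ∂ma {p | p 0 ∈ D ∧ zc p ∈ Om} (Fin.cons (fun p => g (p 0)) u) =
      ∫ t, lvE g t 1 * ∫ z, φ (jL t z) ∂ma Om fun k z => u k (jL t z) := by
  have hO := isOpen_pr hD hOm
  have hK1 : IsCompact (p0 n '' tsupport φ) := hφ.cpt.image (p0 n).continuous
  have hK2 : IsCompact (zc '' tsupport φ) := hφ.cpt.image cont_zc
  have s1 : p0 n '' tsupport φ ⊆ D := by rintro _ ⟨p, hp, rfl⟩; exact (hφ.sub hp).1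
  have s2 : zc '' tsupport φ ⊆ Om := by rintro _ ⟨p, hp, rfl⟩; exact (hφ.sub hp).2
  obtain ⟨V, hV, a1, a2, a3⟩ := exists_rc hK2 hOm s2
  have hL : IsCompact ((fun p : ℂ × Cn n => jL p.1 p.2) '' ((p0 n '' tsupport φ) ×ˢ closure V)) :=
    (hK1.prod a3).image cont_jL
  have hLO : (fun p : ℂ × Cn n => jL p.1 p.2) '' ((p0 n '' tsupport φ) ×ˢ closure V) ⊆
      {p | p 0 ∈ D ∧ zc p ∈ Om} := by rintro _ ⟨p, hp, rfl⟩; exact ⟨s1 hp.1, a2 hp.2⟩
  obtain ⟨U, S, hU, b1, b2, -, -, hM, hS⟩ := exists_ap hO hL hLO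
  have hm : ∀ t ∈ p0 n '' tsupport φ, ∀ z ∈ V, jL t z ∈ U := fun t ht z hz =>
    b1 ⟨(t, z), ⟨ht, subset_closure hz⟩, rfl⟩
  have hg0 : Sp {p : Cn (n + 1) | p 0 ∈ D ∧ zc p ∈ Om} fun p => g (p 0) :=
    ⟨sm_p0 hg, fun p hp => (psd_iff (sm_p0 hg).contDiffAt).2 fun v => by
      have h1 := lvE_comp (T := (EuclideanSpace.proj 0 : Cn (n + 1) →L[ℂ] ℂ)) (u := g) (z := p)
        (ContinuousLinearMap.contDiff _).contDiffAt (hg.contDiffAt.of_le two_le_inf) v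
      rw [lvE_one g] at h1
      exact h1.symm ▸ mul_nonneg (sq_nonneg _) (h0 _ hp.1)⟩
  have hsm : ∀ j k, ContDiff ℝ ∞ (S j (u k)) := fun j k => hM.sm j _ (hu k).1
  have h1 := ma_lim hO (u := Fin.cons (fun p => g (p 0)) u) (fun k => Fin.cases (hg0.cp hO) hu k) hU b2
    ⟨hφ.cont, hφ.cpt, fun p hp => jL_zc p ▸ hm _ ⟨p, hp, rfl⟩ _ (a1 ⟨p, hp, rfl⟩)⟩
    (v := fun j => Fin.cons (fun p => g (p 0)) fun k => S j (u k))
    fun k => Fin.cases (Ap.const (hg0.mono b2)) (fun k => hS _ (hu k)) k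
  simp only [fun j => (fub_smooth hg (hsm j) hφ).2] at h1
  refine tendsto_nhds_unique h1 ?_
  have hsp : ∀ j k, Sp U (S j (u k)) → ∀ t ∈ p0 n '' tsupport φ, Sp V fun z => S j (u k) (jL t z) :=
    fun j k h t ht => ⟨sm_sl h.1 t, fun z hz =>
      psd_comp (sm_jL t).contDiffAt h.1.contDiffAt (h.2 _ (hm t ht z hz))⟩
  obtain ⟨R, hR, hb⟩ := exists_bd hL (u := Fin.cons (fun _ => 0) u) fun k =>
    Fin.cases continuousOn_const (fun k => (hu k).1.mono hLO) k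
  obtain ⟨C, hC, hcl⟩ := cln hV hK2 a1 (R := R + 1) (by linarith)
  obtain ⟨B, hB, hφB⟩ := hφ.bdd
  have hc : ∀ t, Continuous fun z => φ (jL t z) := fun t => hφ.cont.comp (sm_jL t).continuous
  have hgc : Continuous fun t => lvE g t 1 := continuous_iff_continuousAt.2 fun t =>
    R281.Rich_710.continuousAt_lvE (hg.contDiffAt.of_le two_le_inf) 1
  refine tendsto_integral_filter_of_dominated_convergence
    ((p0 n '' tsupport φ).indicator fun t => ‖lvE g t 1‖ * (B * C))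
    (Eventually.of_forall fun j => (fub_smooth hg (hsm j) hφ).1.aestronglyMeasurable) ?_
    ((integrable_indicator_iff hK1.measurableSet).2
      ((hgc.norm.mul continuous_const).continuousOn.integrableOn_compact hK1))
    (Eventually.of_forall fun t => ?_)
  · filter_upwards [eventually_all.2 fun k => (hS _ (hu k)).sp,
      eventually_all.2 fun k => (hS _ (hu k)).near one_pos] with j h2 h3
    refine Eventually.of_forall fun t => ?_
    by_cases ht : t ∈ p0 n '' tsupport φ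
    · rw [indicator_of_mem ht, norm_mul]
      refine mul_le_mul_of_nonneg_left (hcl _ (fun k => ⟨hsp j k (h2 k) t ht, fun z hz => ?_⟩) _ B hB
        (fun z _ => hφB _) fun z hz => zero_sl (Or.inr hz)) (norm_nonneg _)
      have h4 := abs_le.1 (h3 k _ (hm t ht z hz))
      have h5 : _ ∧ u k (jL t z) ≤ R := abs_le.1 (hb k.succ _ ⟨(t, z), ⟨ht, subset_closure hz⟩, rfl⟩)
      rw [abs_le]
      constructor <;> linarith [h4.1, h4.2, h5.1, h5.2]
    · simp [indicator_of_notMem ht, zero_sl (Or.inl ht)]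
  · by_cases ht : t ∈ p0 n '' tsupport φ
    · exact (ma_lim hOm (cp_sl hD hOm hu (s1 ht)) hV (subset_closure.trans a2)
        (Tst.of_cpt (hc t) hK2 a1 fun z hz => zero_sl (Or.inr hz))
        (v := fun j k z => S j (u k) (jL t z)) fun k => Ap.of_near
          ((hS _ (hu k)).sp.mono fun j hj => hsp j k hj t ht) fun δ hδ =>
            ((hS _ (hu k)).near hδ).mono fun j hj z hz => hj _ (hm t ht z hz)).const_mul _
    · simp [zero_sl (Or.inl ht)]

end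

/-- **Fubini** -/
theorem fubini {D : Set ℂ} (hD : IsOpen D) {Om : Set (Cn n)} (hOm : IsOpen Om)
    {u : Fin n → Cn (n + 1) → ℝ} (hu : ∀ k, CP {p | p 0 ∈ D ∧ zc p ∈ Om} (u k))
    {g : ℂ → ℝ} (hg : ContDiff ℝ ∞ g) (h0 : ∀ t ∈ D, 0 ≤ lvE g t 1)
    {φ : Cn (n + 1) → ℝ} (hφ : Tst {p | p 0 ∈ D ∧ zc p ∈ Om} φ) :
    ContinuousOn (fun t => ∫ z, φ (jL t z) ∂ma Om fun k z => u k (jL t z)) D ∧
    ∫ p, φ p ∂ma {p | p 0 ∈ D ∧ zc p ∈ Om} (Fin.cons (fun p => g (p 0)) u) =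
      ∫ t in D, lvE g t 1 * ∫ z, φ (jL t z) ∂(ma Om fun k z => u k (jL t z)) ∧
    IntegrableOn (fun t => lvE g t 1 * ∫ z, φ (jL t z) ∂ma Om fun k z => u k (jL t z)) D := by
  have h1 := tst_fib hD hOm hu hφ
  have hgc : Continuous fun t => lvE g t 1 := continuous_iff_continuousAt.2 fun t =>
    R281.Rich_710.continuousAt_lvE (hg.contDiffAt.of_le two_le_inf) 1
  refine ⟨h1.cont.continuousOn, ?_, ((hgc.mul h1.cont).integrable_of_hasCompactSupport
    h1.cpt.mul_left).integrableOn⟩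
  rw [fubini0 hD hOm hu hφ hg h0, setIntegral_eq_integral_of_forall_compl_eq_zero fun t ht => by
    rw [h1.zero_off ht, mul_zero]]

end

end Crest.Agent.X261.BT.DiscF
end

-- ▼ part X261/BT/DiscC
section

/-!
# X261 / BT (helper20), DISC part C: Fubini on `ℂ × M` and the variation of the energy

`MX_fubini`, `Er_psh`.
-/

set_option autoImplicit false
set_option linter.unusedSectionVars false

open Set Filter Topology Complex MeasureTheory Metric Function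
open scoped ContDiff

namespace Crest.Agent.X261.BT

open Crest.Agent.R275.Geo
open Crest.Agent.R281.Rich_710 (PshL dav continuousAt_lvE)
open Crest.Agent.R281.Kp_487 (KP pot)
open Crest.Agent.R257.HoB_843 (lvE lvE_congr)
open Crest.Agent.R257.Glue2_101 (lvE_add lvE_const_mul lvE_sq lvE_comp1 lvE_const)
open Crest.Agent.R273.YauCh_635 (two_le_inf)

noncomputable section

variable {n : ℕ} {M : Type} [TopologicalSpace M] {A : Atl n M} [MeasurableSpace M] [BorelSpace M]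
  [Countable A.ι] [T2Space M]

/-- the affine coordinate change on `ℂ` -/
def af (q s : ℂ) : ℂ := 4 * (s - c0) + q

/-- its inverse -/
def afi (q t : ℂ) : ℂ := (t - q) / 4 + c0

theorem af_afi (q t : ℂ) : af q (afi q t) = t := by unfold af afi; ring

theorem sm_af (q : ℂ) : ContDiff ℂ ∞ (af q) :=
  (contDiff_const.mul (contDiff_id.sub contDiff_const)).add contDiff_const

theorem lvE_af (q : ℂ) {τ : ℂ → ℝ} (hτ : ContDiff ℝ ∞ τ) (s : ℂ) :
    lvE (fun s => τ (af q s)) s 1 = 16 * lvE τ (af q s) 1 := by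
  have h1 : HasDerivAt (af q) (4 * 1) s :=
    (((hasDerivAt_id s).sub_const c0).const_mul 4).add_const q
  rw [lvE_comp1 (sm_af q).contDiffAt hτ.contDiffAt, h1.hasFDerivAt.fderiv]
  simp only [ContinuousLinearMap.toSpanSingleton_apply, one_smul, mul_one, Complex.norm_ofNat]
  ring

theorem int_af (q : ℂ) {B : Set ℂ} (hB : MeasurableSet B) (F : ℂ → ℝ) :
    ∫ s in af q ⁻¹' B, 16 * F (af q s) = ∫ t in B, F t := by
  have h1 : (af q ⁻¹' B).indicator (fun s => 16 * F (af q s)) =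
      fun s => 16 * (fun y => B.indicator F (y + (q - 4 * c0))) ((4 : ℝ) • s) := by
    funext s
    have e : (4 : ℝ) • s + (q - 4 * c0) = af q s := by
      simp only [af, real_smul, ofReal_ofNat]; ring
    simp only [e]
    by_cases h : af q s ∈ B
    · rw [indicator_of_mem h, indicator_of_mem (show s ∈ af q ⁻¹' B from h)]
    · rw [indicator_of_notMem h, indicator_of_notMem (show s ∉ af q ⁻¹' B from h), mul_zero]
  rw [← integral_indicator (hB.preimage (sm_af q).continuous.measurable), h1, integral_const_mul,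
    Measure.integral_comp_smul volume (fun y => B.indicator F (y + (q - 4 * c0))) (4 : ℝ),
    integral_add_right_eq_self (B.indicator F), integral_indicator hB,
    Complex.finrank_real_complex, smul_eq_mul]
  rw [abs_of_pos (by positivity)]
  ring

theorem intOn_of_cpt {B L : Set ℂ} (hB : IsOpen B) (hL : IsCompact L) (hLB : L ⊆ B) {F : ℂ → ℝ}
    (hF : ContinuousOn F B) (h0 : ∀ t ∈ B, t ∉ L → F t = 0) : IntegrableOn F B :=
  ((hF.mono hLB).integrableOn_compact hL).of_forall_sdiff_eq_zero hB.measurableSet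
    fun t ht => h0 t ht.1 ht.2

theorem cont_lvE {τ : ℂ → ℝ} (hτ : ContDiff ℝ ∞ τ) : Continuous fun t => lvE τ t 1 :=
  continuous_iff_continuousAt.2 fun _ => continuousAt_lvE (hτ.contDiffAt.of_le two_le_inf) 1

theorem Tst.slice {U : Set (ℂ × M)} {φ : ℂ × M → ℝ} (h : Tst U φ) (t : ℂ) :
    Tst {x | (t, x) ∈ U} fun x => φ (t, x) := by
  have hc : IsClosed {x | (t, x) ∈ tsupport φ} :=
    (isClosed_tsupport φ).preimage (Continuous.prodMk_right t)
  exact Tst.of_cpt (h.cont.comp (Continuous.prodMk_right t))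
    ((h.cpt.image continuous_snd).of_isClosed_subset hc fun x hx => ⟨_, hx, rfl⟩)
    (fun x hx => h.sub hx) fun x hx => image_eq_zero_of_notMem_tsupport hx

section fub

variable {B : Set ℂ} {W : Set M} {H : Fin n → KP A} {δ : Fin n → ℝ} {f : Fin n → ℂ × M → ℝ}
  {τ : ℂ → ℝ} {φ : ℂ × M → ℝ}

theorem qp_t (hB : IsOpen B) (hW : IsOpen W) (hτ : ContDiff ℝ ∞ τ) (h0 : ∀ t ∈ B, 0 ≤ lvE τ t 1) :
    QP (pbd 0 (zr A)) (B ×ˢ W) fun p => τ p.1 :=
  ((QP.const (pbd_semi le_rfl semi_zr) (hB.prod hW) 0).add_t hB (fun _ hp => hp.1)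
    hτ.continuous.continuousOn (PL.of_lvE hB fun t ht => ⟨hτ.contDiffAt.of_le two_le_inf, fun v => by
      have h1 := lvE_comp1 (g := fun y : ℂ => y) (H := τ) (z := t) contDiffAt_id hτ.contDiffAt v
      have := h0 t ht
      rw [h1]; positivity⟩)).congr fun _ _ => (zero_add _).symm

theorem qp_cons {U : Set (ℂ × M)} {G : KP (dA A)} {c : ℂ × M → ℝ} (hc : QP G U c)
    {Hs : Fin n → KP (dA A)} (hf : ∀ l, QP (Hs l) U (f l)) (l : Fin (n + 1)) :
    QP ((Fin.cons G Hs : Fin (n + 1) → KP (dA A)) l) U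
      ((Fin.cons c f : Fin (n + 1) → ℂ × M → ℝ) l) :=
  Fin.cases hc hf l

theorem fubini_chart (hB : IsOpen B) {k : ℕ} (hBk : B ⊆ ball (qk k) 2) (hW : IsOpen W)
    (hf : ∀ l, QP (pbd (δ l) (H l)) (B ×ˢ W) (f l)) (hτ : ContDiff ℝ ∞ τ)
    (h0 : ∀ t ∈ B, 0 ≤ lvE τ t 1) {i : A.ι} (hφ : Tst (B ×ˢ (W ∩ (A.e i).source)) φ) :
    ContinuousOn (fun t => ∫ x, φ (t, x) ∂MX W H fun l x => f l (t, x)) B ∧
      ∫ p, φ p ∂MX (B ×ˢ W) (Fin.cons (pbd 0 (zr A)) fun l => pbd (δ l) (H l))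
        (Fin.cons (fun p => τ p.1) f) =
        ∫ t in B, lvE τ t 1 * ∫ x, φ (t, x) ∂MX W H fun l x => f l (t, x) := by
  have hq := qp_cons (qp_t hB hW hτ h0) hf
  have hφ' : Tst ((B ×ˢ W) ∩ ((dA A).e (i, k)).source) φ :=
    hφ.mono fun p hp => ⟨⟨hp.1, hp.2.1⟩, hBk hp.1, hp.2.2⟩
  have hB' : IsOpen (af (qk k) ⁻¹' B) := hB.preimage (sm_af _).continuous
  have e1 : chU (dA A) (B ×ˢ W) (i, k) =
      {w | w 0 ∈ af (qk k) ⁻¹' B ∧ zc w ∈ chU A W i} := by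
    ext w
    exact ⟨fun h => ⟨h.2.1, h.1.2, h.2.2⟩, fun h => ⟨⟨hBk h.1, h.2.1⟩, h.1, h.2.2⟩⟩
  have e2 : (fun l => pot ((Fin.cons (pbd 0 (zr A)) fun l => pbd (δ l) (H l) :
      Fin (n + 1) → KP (dA A)) l) ((Fin.cons (fun p => τ p.1) f : Fin (n + 1) → ℂ × M → ℝ) l)
        (i, k)) = Fin.cons (fun w => τ (af (qk k) (w 0)))
          fun l => pot (pbd (δ l) (H l)) (f l) (i, k) := by
    funext l
    refine Fin.cases ?_ (fun _ => rfl) l
    funext w
    simp only [Fin.cons_zero]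
    rw [pot_pbd, jpot_apply, wt_zr, zero_add, zero_mul, add_zero]
    rfl
  have h1 := DiscF.fubini hB' (isOpen_chU hW i)
    (u := fun l => pot (pbd (δ l) (H l)) (f l) (i, k)) (fun l => e1 ▸ (hf l).cp (i, k))
    (g := fun s => τ (af (qk k) s)) (hτ.comp ((sm_af _).restrict_scalars ℝ))
    (fun s hs => by rw [lvE_af _ hτ]; exact mul_nonneg (by norm_num) (h0 _ hs))
    (φ := rd (dA A) (i, k) φ) (e1 ▸ hφ'.rd)
  have e3 : ∀ s ∈ af (qk k) ⁻¹' B, ∫ z, rd (dA A) (i, k) φ (jL s z) ∂ma (chU A W i)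
      (fun l z => pot (pbd (δ l) (H l)) (f l) (i, k) (jL s z)) =
      ∫ x, φ (af (qk k) s, x) ∂MX W H fun l x => f l (af (qk k) s, x) := by
    intro s hs
    have h2 := fun l => (hf l).slice' hs
    have h3 : Tst (W ∩ (A.e i).source) fun x => φ (af (qk k) s, x) :=
      (hφ.slice _).mono fun x hx => hx.2
    rw [← MX_const hW h2 fun l => δ l * ‖af (qk k) s‖ ^ 2,
      MX_int_tst hW (fun l => (h2 l).add_const _) h3]
    congr 1
    · congr 1
      funext l z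
      rw [pot_pbd, jpot_apply, pot_apply, add_assoc]
      rfl
    · funext z
      by_cases hz : z ∈ (A.e i).target
      · rw [rd_of_mem hz, rd_of_mem (A := dA A) (i := (i, k)) (z := jL s z) ⟨hBk hs, hz⟩]
        rfl
      · rw [rd_of_not hz, rd_of_not (A := dA A) (i := (i, k)) (z := jL s z) fun h => hz h.2]
  refine ⟨?_, ?_⟩
  · have h4 : ContinuousOn (fun s => ∫ x, φ (af (qk k) s, x)
        ∂MX W H fun l x => f l (af (qk k) s, x)) (af (qk k) ⁻¹' B) :=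
      h1.1.congr fun s hs => (e3 s hs).symm
    have h5 := h4.comp (f := afi (qk k)) (s := B) (by unfold afi; fun_prop) fun t ht => by
      rw [mem_preimage, af_afi]; exact ht
    refine h5.congr fun t _ => ?_
    simp only [comp_apply, af_afi]
  · rw [MX_int_tst (hB.prod hW) hq hφ', e1, e2, h1.2.1, ← int_af (qk k) hB.measurableSet]
    refine setIntegral_congr_fun hB'.measurableSet fun s hs => ?_
    beta_reduce
    rw [e3 s hs, lvE_af _ hτ, mul_assoc]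

/-- **Fubini** -/
theorem MX_fubini (hB : IsOpen B) {k : ℕ} (hBk : B ⊆ ball (qk k) 2) (hW : IsOpen W)
    (hf : ∀ l, QP (pbd (δ l) (H l)) (B ×ˢ W) (f l)) (hτ : ContDiff ℝ ∞ τ)
    (h0 : ∀ t ∈ B, 0 ≤ lvE τ t 1) (hφ : Tst (B ×ˢ W) φ) :
    ContinuousOn (fun t => ∫ x, φ (t, x) ∂MX W H fun l x => f l (t, x)) B ∧
      ∫ p, φ p ∂MX (B ×ˢ W) (Fin.cons (pbd 0 (zr A)) fun l => pbd (δ l) (H l))
        (Fin.cons (fun p => τ p.1) f) =
        ∫ t in B, lvE τ t 1 * ∫ x, φ (t, x) ∂MX W H fun l x => f l (t, x) := by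
  obtain ⟨s, ψ, -, p2, -, -, p5⟩ := exists_partM A (hφ.cpt.image continuous_snd) hW (by
    rintro _ ⟨p, hp, rfl⟩; exact (hφ.sub hp).2)
  have t1 : ∀ i, Tst (B ×ˢ (W ∩ (A.e i).source)) fun p => φ p * ψ i p.2 := fun i => by
    refine Tst.of_cpt (hφ.cont.mul ((p2 i).cont.comp continuous_snd))
      (hφ.cpt.inter_right ((isClosed_tsupport (ψ i)).preimage continuous_snd))
      (fun p hp => ⟨(hφ.sub hp.1).1, (p2 i).sub hp.2⟩) fun p hp => ?_
    by_cases h : p ∈ tsupport φ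
    · rw [image_eq_zero_of_notMem_tsupport (f := ψ i) fun h' => hp ⟨h, h'⟩, mul_zero]
    · rw [image_eq_zero_of_notMem_tsupport h, zero_mul]
  have e : φ = fun p => ∑ i ∈ s, φ p * ψ i p.2 := by
    funext p
    rw [← Finset.mul_sum]
    by_cases h : p ∈ tsupport φ
    · rw [p5.self_of_nhdsSet _ ⟨p, h, rfl⟩, mul_one]
    · rw [image_eq_zero_of_notMem_tsupport h, zero_mul]
  have h1 := fun i => fubini_chart hB hBk hW hf hτ h0 (t1 i)
  have e2 : ∀ t ∈ B, (∫ x, φ (t, x) ∂MX W H fun l x => f l (t, x)) =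
      ∑ i ∈ s, ∫ x, φ (t, x) * ψ i x ∂MX W H fun l x => f l (t, x) := fun t ht => by
    rw [← integral_finsetSum _ fun i _ => MX_int hW (fun l => (hf l).slice' ht)
      (((t1 i).slice t).mono fun x hx => hx.2.1)]
    exact congrArg _ (funext fun x => congrFun e (t, x))
  refine ⟨(continuousOn_finsetSum s fun i _ => (h1 i).1).congr e2, ?_⟩
  rw [setIntegral_congr_fun hB.measurableSet (g := fun t => ∑ i ∈ s, lvE τ t 1 *
    ∫ x, φ (t, x) * ψ i x ∂MX W H fun l x => f l (t, x)) fun t ht => by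
      simp only; rw [e2 t ht, Finset.mul_sum], integral_finsetSum, e, integral_finsetSum]
  · refine Finset.sum_congr rfl fun i _ => ?_
    rw [← e]
    exact (h1 i).2
  · exact fun i _ => MX_int (hB.prod hW) (qp_cons (qp_t hB hW hτ h0) hf)
      ((t1 i).mono fun p hp => ⟨hp.1, hp.2.1⟩)
  · intro i _
    refine intOn_of_cpt hB (hφ.cpt.image continuous_fst) (by
      rintro _ ⟨p, hp, rfl⟩; exact (hφ.sub hp).1) ((cont_lvE hτ).continuousOn.mul (h1 i).1)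
      fun t _ ht => ?_
    have : ∀ x, φ (t, x) = 0 := fun x => image_eq_zero_of_notMem_tsupport fun h => ht ⟨_, h, rfl⟩
    simp [this]

end fub

theorem cons_mx_a {α : Type*} (j : ℕ) (a b : α) :
    (Fin.cons a (mx n j a b) : Fin (n + 1) → α) = mx (n + 1) (j + 1) a b := by
  funext l
  refine Fin.cases ?_ (fun l => ?_) l <;> simp [mx]

theorem cons_mx_b {α : Type*} {j : ℕ} (hj : j < n + 1) (a b : α) :
    (Fin.cons b (mx n j a b) : Fin (n + 1) → α) =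
      fun l => mx (n + 1) j a b (Equiv.swap 0 ⟨j, hj⟩ l) := by
  funext l
  refine Fin.cases ?_ (fun l => ?_) l
  · simp [mx]
  · by_cases h : l.succ = ⟨j, hj⟩
    · have h1 : (l : ℕ) + 1 = j := by simpa using congrArg Fin.val h
      rw [h, Equiv.swap_apply_right, ← h, Fin.cons_succ]
      have h2 : (l : ℕ) < j := by omega
      have h3 : 0 < j := by omega
      simp [mx, h2, h3]
    · have h1 : (l : ℕ) + 1 ≠ j := fun h2 => h (Fin.ext (by simpa using h2))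
      rw [Equiv.swap_apply_of_ne_of_ne (Fin.succ_ne_zero l) h, Fin.cons_succ]
      have h2 : (l : ℕ) + 1 < j ↔ (l : ℕ) < j := by omega
      simp [mx, h2]

theorem upd_const_zero {α : Type*} (x y : α) :
    update (fun _ : Fin (n + 1) => x) 0 y = Fin.cons y fun _ => x := by
  funext l
  refine Fin.cases ?_ (fun l => ?_) l
  · simp
  · rw [update_of_ne (Fin.succ_ne_zero l), Fin.cons_succ]

variable {H : KP A} {δ : ℝ} {a b : ℂ × M → ℝ}

/-- the fibre formula, for a compactly supported difference -/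
theorem fibre (hH : H.Pos) (hδ : 0 ≤ δ) {B : Set ℂ} {W : Set M} (hB : IsOpen B) {k : ℕ}
    (hBk : B ⊆ ball (qk k) 2) (hW : IsOpen W) (ha : QP (pbd δ H) (B ×ˢ W) a)
    (hb : QP (pbd δ H) (B ×ˢ W) b) {K : Set (ℂ × M)} (hK : IsCompact K) (hKU : K ⊆ B ×ˢ W)
    (e : ∀ p ∈ B ×ˢ W, p ∉ K → a p = b p) {χ : ℂ → ℝ} (hχ : ContDiff ℝ ∞ χ)
    (hc : HasCompactSupport χ) :
    (n + 1 : ℝ) * ∫ t in B, lvE χ t 1 * ErA (MX W fun _ => H) (fun x => a (t, x))
      (fun x => b (t, x)) = ∫ p in K, χ p.1 ∂MAo (pbd δ H) (B ×ˢ W) a -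
        ∫ p in K, χ p.1 ∂MAo (pbd δ H) (B ×ˢ W) b := by
  have := lcs (dA A)
  have := sct (dA A)
  have hU := hB.prod hW
  have z : ∀ t, t ∉ tsupport χ → lvE χ t 1 = 0 := fun t ht => by
    rw [lvE_congr (notMem_tsupport_iff_eventuallyEq.1 ht)]
    exact lvE_const 0 t 1
  obtain ⟨C, hC⟩ := (cont_lvE hχ).bounded_above_of_compact_support (HasCompactSupport.intro hc z)
  have hC0 : 0 ≤ C := (norm_nonneg _).trans (hC 0)
  have s0 : ContDiff ℝ ∞ fun t : ℂ => C * ‖t‖ ^ 2 := contDiff_const.mul (contDiff_norm_sq ℝ)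
  have l0 : ∀ t : ℂ, lvE (fun t : ℂ => C * ‖t‖ ^ 2) t 1 = C := fun t => by
    rw [lvE_const_mul (contDiff_norm_sq ℝ).contDiffAt, R257.Glue2_101.lvE_nsq]; simp
  have s1 : ContDiff ℝ ∞ fun t : ℂ => C * ‖t‖ ^ 2 + χ t := s0.add hχ
  have l1 : ∀ t : ℂ, lvE (fun t : ℂ => C * ‖t‖ ^ 2 + χ t) t 1 = C + lvE χ t 1 := fun t => by
    rw [lvE_add s0.contDiffAt hχ.contDiffAt, l0]
  have p0 : ∀ t ∈ B, 0 ≤ lvE (fun t : ℂ => C * ‖t‖ ^ 2) t 1 := fun t _ => by rw [l0]; exact hC0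
  have p1 : ∀ t ∈ B, 0 ≤ lvE (fun t : ℂ => C * ‖t‖ ^ 2 + χ t) t 1 := fun t _ => by
    rw [l1]; linarith [(abs_le.1 (hC t)).1]
  obtain ⟨η, t1, t2, -⟩ := exists_tst hK hU hKU
  have t3 := t1.mul_on hU (ha.cont.sub hb.cont)
  have e1 : ∀ p ∈ B ×ˢ W, a p - b p = η p * (a - b) p := fun p hp => by
    by_cases h : p ∈ K
    · rw [t2 p h, one_mul]; rfl
    · rw [Pi.sub_apply, e p hp h, sub_self, mul_zero]
  have q := fun j => mx_prop (n := n) (P := QP (pbd δ H) (B ×ˢ W)) ha hb j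
  set I : ℕ → ℂ → ℝ := fun j t => ∫ x, η (t, x) * (a - b) (t, x)
    ∂MX W (fun _ => H) fun l x => mx n j a b l (t, x) with hI
  set N : ℕ → ℝ := fun j => ∫ p in K, χ p.1 ∂MX (B ×ˢ W) (fun _ => pbd δ H) (mx (n + 1) j a b)
    with hN
  have z2 : ∀ j t, t ∉ Prod.fst '' tsupport η → I j t = 0 := fun j t ht => by
    have : ∀ x, η (t, x) = 0 := fun x => image_eq_zero_of_notMem_tsupport fun h => ht ⟨_, h, rfl⟩
    simp [hI, this]
  have hL : Prod.fst '' tsupport η ⊆ B := by rintro _ ⟨p, hp, rfl⟩; exact (t1.sub hp).1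
  have cI : ∀ j, ContinuousOn (I j) B := fun j =>
    (MX_fubini (H := fun _ => H) (δ := fun _ => δ) hB hBk hW (q j) s0 p0 t3).1
  have iI : ∀ j, ∀ g : ℂ → ℝ, Continuous g → IntegrableOn (fun t => g t * I j t) B := fun j g hg =>
    intOn_of_cpt hB (t1.cpt.image continuous_fst) hL (hg.continuousOn.mul (cI j))
      fun t _ ht => by rw [z2 j t ht, mul_zero]
  have key : ∀ j < n + 1, ∫ t in B, lvE χ t 1 * I j t = N (j + 1) - N j := fun j hj => by
    have h1 := MX_stokes_on (H := fun _ => pbd δ H) (φ := Fin.cons a (mx n j a b))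
      (pbd_pos one_pos hH) hU (Fin.cases ha (q j)) 0 ha hb hK hKU e (pbd_semi hδ (pos_semi hH))
      (qp_t hB hW s1 p1) (qp_t hB hW s0 p0)
    have f : ∀ {τ : ℂ → ℝ}, ContDiff ℝ ∞ τ → (∀ t ∈ B, 0 ≤ lvE τ t 1) →
        ∫ p, (a p - b p) ∂MX (B ×ˢ W) (Fin.cons (pbd 0 (zr A)) fun _ => pbd δ H)
          (Fin.cons (fun p => τ p.1) (mx n j a b)) = ∫ t in B, lvE τ t 1 * I j t := fun hτ h0 => by
      rw [← (MX_fubini (H := fun _ => H) (δ := fun _ => δ) hB hBk hW (q j) hτ h0 t3).2]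
      refine integral_congr_ae ?_
      filter_upwards [(MX_rad hU (qp_cons (qp_t hB hW hτ h0) (q j))).ae_mem] with p hp
      exact e1 p hp
    simp only [Fin.update_cons_zero, update_eq_self, add_sub_cancel_left] at h1
    rw [upd_const_zero, f s1 p1, f s0 p0, cons_mx_a, cons_mx_b hj,
      MX_perm hU (mx_prop (P := QP (pbd δ H) (B ×ˢ W)) ha hb j),
      ← integral_sub (iI j _ (cont_lvE s1)) (iI j _ (cont_lvE s0))] at h1
    rw [← h1]
    congr 1
    funext t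
    rw [l0, l1]; ring
  have h2 := Finset.sum_range_sub N (n + 1)
  rw [← Finset.sum_congr rfl fun j hj => key j (Finset.mem_range.1 hj),
    ← integral_finsetSum _ fun j _ => iI j _ (cont_lvE hχ)] at h2
  simp only [hN, mx_top, mx_zero] at h2
  rw [MAo, MAo, ← h2, ← integral_const_mul]
  refine setIntegral_congr_fun hB.measurableSet fun t ht => ?_
  rw [ErA, mul_left_comm, ← mul_assoc (n + 1 : ℝ), mul_one_div_cancel (by positivity), one_mul,
    ← Finset.mul_sum]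
  congr 1
  refine Finset.sum_congr rfl fun j _ => ?_
  rw [← mx_comp (fun (g : ℂ × M → ℝ) x => g (t, x))]
  refine integral_congr_ae ?_
  filter_upwards [(MX_rad hW fun l => (q j l).slice' ht).ae_mem] with x hx
  exact e1 (t, x) ⟨ht, hx⟩

theorem tuo_slice {D : Set ℂ} {c : ℂ × M → ℝ} (hc : ContinuousOn c (D ×ˢ univ)) {t : ℂ}
    (ht : t ∈ D) {L : Set M} (hL : IsCompact L) :
    TendstoUniformlyOn (fun s x => c (s, x)) (fun x => c (t, x)) (𝓝[D] t) L := fun _ hu => by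
  obtain ⟨v, h1, h2⟩ := hL.mem_uniformity_of_prod (f := fun s x => c (s, x))
    (hc.mono (prod_mono Subset.rfl (subset_univ _))) ht (symm_le_uniformity hu)
  exact eventually_of_mem h1 h2

theorem Er_contOn {D : Set ℂ} {K : Set M} (hK : IsCompact K)
    (ha : QP (pbd δ H) (D ×ˢ univ) a) (hb : QP (pbd δ H) (D ×ˢ univ) b)
    (e : ∀ t ∈ D, ∀ x ∉ K, a (t, x) = b (t, x)) :
    ContinuousOn (fun t => Er H (fun x => a (t, x)) fun x => b (t, x)) D := by
  have := lcs A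
  intro t ht
  exact Er_tendsto (ha.slice' ht) (hb.slice' ht) hK
    (eventually_nhdsWithin_of_forall fun s hs => ⟨ha.slice' hs, hb.slice' hs, e s hs⟩) (e t ht)
    (tendstoLocallyUniformly_iff_forall_isCompact.2 fun L hL => tuo_slice ha.cont ht hL)
    (tendstoLocallyUniformly_iff_forall_isCompact.2 fun L hL => tuo_slice hb.cont ht hL)

/-- **plurisubharmonic variation of the energy** -/
theorem Er_psh (hH : H.Pos) (hδ : 0 ≤ δ) {D : Set ℂ} (hD : IsOpen D) {K : Set M}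
    (hK : IsCompact K) (ha : QP (pbd δ H) (D ×ˢ univ) a) (hb : QP (pbd δ H) (D ×ˢ univ) b)
    (e : ∀ t ∈ D, ∀ x ∉ K, a (t, x) = b (t, x))
    (hm : MAo (pbd δ H) (D ×ˢ univ) b ≤ MAo (pbd δ H) (D ×ˢ univ) a) :
    ContinuousOn (fun t => Er H (fun x => a (t, x)) fun x => b (t, x)) D ∧
      PshL D fun t => Er H (fun x => a (t, x)) fun x => b (t, x) := by
  have hc := Er_contOn hK ha hb e
  refine ⟨hc, PL.of_local fun t₀ ht₀ => ?_⟩
  have := lcs A
  obtain ⟨R₀, hR₀, h1⟩ := Metric.isOpen_iff.1 hD t₀ ht₀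
  obtain ⟨r, hr, hr1, hrD⟩ : ∃ r : ℝ, 0 < r ∧ 3 * r ≤ 1 ∧ closedBall t₀ (3 * r) ⊆ D :=
    ⟨min (1 / 3) (R₀ / 4), by positivity, by linarith [min_le_left (1 / 3) (R₀ / 4)],
      (closedBall_subset_ball (by linarith [min_le_right (1 / 3) (R₀ / 4)])).trans h1⟩
  obtain ⟨k, hk⟩ := exists_qk t₀ one_pos
  have hBk : ball t₀ (3 * r) ⊆ ball (qk k) 2 := ball_subset_ball' (by
    rw [mem_ball] at hk; linarith)
  obtain ⟨W, hW, hKW, -, hWc⟩ := exists_open_between_and_isCompact_closure hK isOpen_univ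
    (subset_univ _)
  have hBD : ball t₀ (3 * r) ⊆ D := ball_subset_closedBall.trans hrD
  have hb1 : ball t₀ r ⊆ ball t₀ (3 * r) := ball_subset_ball (by linarith)
  have hL := (isCompact_closedBall t₀ (3 * r)).prod hWc
  have hLD : closedBall t₀ (3 * r) ×ˢ closure W ⊆ D ×ˢ univ := prod_mono hrD (subset_univ _)
  obtain ⟨S₁, hS₁⟩ := hL.exists_bound_of_continuousOn (ha.cont.mono hLD)
  obtain ⟨S₂, hS₂⟩ := hL.exists_bound_of_continuousOn (hb.cont.mono hLD)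
  set S := |S₁| + |S₂| with hS
  have hS0 : 0 ≤ S := by positivity
  have hU : IsOpen (ball t₀ (3 * r) ×ˢ W) := isOpen_ball.prod hW
  have hUD : ball t₀ (3 * r) ×ˢ W ⊆ D ×ˢ univ := prod_mono hBD (subset_univ _)
  have bd : ∀ p ∈ ball t₀ (3 * r) ×ˢ W, |a p| ≤ S ∧ |b p| ≤ S := fun p hp => by
    have h2 : p ∈ closedBall t₀ (3 * r) ×ˢ closure W :=
      ⟨ball_subset_closedBall hp.1, subset_closure hp.2⟩
    have h3 := (hS₁ p h2).trans (le_abs_self _)
    have h4 := (hS₂ p h2).trans (le_abs_self _)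
    rw [Real.norm_eq_abs] at h3 h4
    exact ⟨by linarith [abs_nonneg S₂], by linarith [abs_nonneg S₁]⟩
  set L : ℂ → ℝ := fun t => S / r ^ 2 * ‖t - t₀‖ ^ 2 - 2 * S with hLd
  have qL : QP (pbd δ H) (ball t₀ (3 * r) ×ˢ W) fun p => L p.1 :=
    ((QP.const (pbd_semi hδ (pos_semi hH)) hU (-(2 * S))).add_t isOpen_univ (fun _ _ => trivial)
      (τ := fun t => S / r ^ 2 * ‖t - t₀‖ ^ 2) (by fun_prop)
      (PL.mul (by positivity) (psh_nsq isOpen_univ t₀))).congr fun p _ => by simp only [hLd]; ring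
  have L1 : ∀ t ∈ ball t₀ r, L t ≤ -S := fun t ht => by
    have h2 : ‖t - t₀‖ ^ 2 ≤ r ^ 2 :=
      pow_le_pow_left₀ (norm_nonneg _) (mem_ball_iff_norm.1 ht).le 2
    have h3 := mul_le_mul_of_nonneg_left h2 (by positivity : 0 ≤ S / r ^ 2)
    rw [div_mul_cancel₀ _ (by positivity)] at h3
    simp only [hLd]; linarith
  have L2 : ∀ t, t ∉ closedBall t₀ (2 * r) → S ≤ L t := fun t ht => by
    have h2 : (2 * r) ^ 2 ≤ ‖t - t₀‖ ^ 2 :=
      pow_le_pow_left₀ (by positivity) (not_le.1 fun h => ht (mem_closedBall_iff_norm.2 h)).le 2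
    have h3 := mul_le_mul_of_nonneg_left h2 (by positivity : 0 ≤ S / r ^ 2)
    rw [show S / r ^ 2 * (2 * r) ^ 2 = 4 * S by field_simp; ring] at h3
    simp only [hLd]; linarith
  have qa := (ha.mono hU hUD).max qL
  have qb := (hb.mono hU hUD).max qL
  have hK' := (isCompact_closedBall t₀ (2 * r)).prod hK
  have hK'U : closedBall t₀ (2 * r) ×ˢ K ⊆ ball t₀ (3 * r) ×ˢ W :=
    prod_mono (closedBall_subset_ball (by linarith)) hKW
  have hV : IsOpen (ball t₀ r ×ˢ W) := isOpen_ball.prod hW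
  have hVU : ball t₀ r ×ˢ W ⊆ ball t₀ (3 * r) ×ˢ W := prod_mono hb1 Subset.rfl
  have ea : ∀ p ∈ ball t₀ r ×ˢ W, max (a p) (L p.1) = a p := fun p hp =>
    max_eq_left ((L1 _ hp.1).trans (abs_le.1 (bd p (hVU hp)).1).1)
  have eb : ∀ p ∈ ball t₀ r ×ˢ W, max (b p) (L p.1) = b p := fun p hp =>
    max_eq_left ((L1 _ hp.1).trans (abs_le.1 (bd p (hVU hp)).2).1)
  refine ⟨ball t₀ r, mem_ball_self hr, DiscF.weyl isOpen_ball (hc.mono (hb1.trans hBD))
    fun χ hχ tχ χ0 => ?_⟩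
  have h2 := fibre hH hδ isOpen_ball hBk hW qa qb hK' hK'U (fun p hp hp' => by
    by_cases h : p.2 ∈ K
    · have h3 := L2 p.1 fun h4 => hp' ⟨h4, h⟩
      rw [max_eq_right ((abs_le.1 (bd p hp).1).2.trans h3),
        max_eq_right ((abs_le.1 (bd p hp).2).2.trans h3)]
    · rw [show a p = b p from e p.1 (hBD hp.1) p.2 h]) hχ tχ.cpt
  have z : ∀ t, t ∉ ball t₀ r → lvE χ t 1 = 0 := fun t ht => by
    rw [lvE_congr (notMem_tsupport_iff_eventuallyEq.1 fun h => ht (tχ.sub h))]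
    exact lvE_const 0 t 1
  have f : ∀ {c : ℂ × M → ℝ}, QP (pbd δ H) (D ×ˢ univ) c →
      QP (pbd δ H) (ball t₀ (3 * r) ×ˢ W) (fun p => max (c p) (L p.1)) →
      (∀ p ∈ ball t₀ r ×ˢ W, max (c p) (L p.1) = c p) →
      ∫ p in closedBall t₀ (2 * r) ×ˢ K, χ p.1
        ∂MAo (pbd δ H) (ball t₀ (3 * r) ×ˢ W) (fun p => max (c p) (L p.1)) =
      ∫ p in closedBall t₀ (2 * r) ×ˢ K, χ p.1 ∂MAo (pbd δ H) (D ×ˢ univ) c := by
    intro c hc hc' ec
    have g : ∀ μ : Measure (ℂ × M), ∫ p in closedBall t₀ (2 * r) ×ˢ K, χ p.1 ∂μ =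
        ∫ p in closedBall t₀ (2 * r) ×ˢ K, χ p.1 ∂μ.restrict (ball t₀ r ×ˢ W) := fun μ => by
      rw [Measure.restrict_restrict hK'.measurableSet]
      refine setIntegral_eq_of_subset_of_forall_sdiff_eq_zero hK'.measurableSet
        inter_subset_left fun p hp => tχ.zero_off fun h => hp.2 ⟨hp.1, h, hKW hp.1.2⟩
    rw [g, g (MAo _ (D ×ˢ univ) c), MAo, MAo, MX_restrict_eq ha.op (fun _ => hc) hU
      (fun _ => hc') hV (hVU.trans hUD) hVU (fun _ => 0) fun _ p hp => by rw [ec p hp, add_zero]]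
  rw [f ha qa ea, f hb qb eb] at h2
  have h3 := integral_mono_measure (Measure.restrict_mono (Subset.refl
    (closedBall t₀ (2 * r) ×ˢ K)) hm) (f := fun p : ℂ × M => χ p.1)
    (Eventually.of_forall fun p => χ0 p.1) ((MX_rad ha.op fun _ => ha).int_on hK'
      (hK'U.trans hUD) (tχ.cont.comp continuous_fst).continuousOn)
  have h4 := (sub_nonneg.2 h3).trans_eq h2.symm
  rw [mul_nonneg_iff_of_pos_left (by positivity),
    setIntegral_eq_of_subset_of_forall_sdiff_eq_zero isOpen_ball.measurableSet hb1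
      fun t ht => by rw [z t ht.2, zero_mul]] at h4
  refine h4.trans_eq (setIntegral_congr_fun isOpen_ball.measurableSet fun t ht => ?_)
  have ht' := hBD (hb1 ht)
  have h5 := fun j => mx_prop (n := n) (P := QP H W)
    ((ha.slice' ht').mono hW (subset_univ _)) ((hb.slice' ht').mono hW (subset_univ _)) j
  rw [Er_eq_loc (ha.slice' ht') (hb.slice' ht') hW fun x hx => e t ht' x fun h => hx (hKW h)]
  congr 1
  unfold ErA
  congr 1
  refine Finset.sum_congr rfl fun j _ => ?_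
  rw [MX_congr hW (h5 j) (ψ := mx n j (fun x => max (a (t, x)) (L t)) fun x => max (b (t, x)) (L t))
    fun l x hx => by
      unfold mx
      split_ifs
      exacts [ea (t, x) ⟨ht, hx⟩, eb (t, x) ⟨ht, hx⟩]]
  refine integral_congr_ae ?_
  filter_upwards [(MX_rad hW (h5 j)).ae_mem] with x hx
  rw [ea (t, x) ⟨ht, hx⟩, eb (t, x) ⟨ht, hx⟩]

end

end Crest.Agent.X261.BT
end

-- ▼ part X261/BT/DiscD
section

/-!
# X261 / BT (helper20), DISC part D: the disc fields of `Two.DS`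

`JC.mem`, `JC.sup`, `JC.tr`, `JC.sups`, `JC.mp`, `JC.sub`, `JC.ex`; `En_psh`, `JP.en_psh`.
-/

set_option autoImplicit false
set_option linter.unusedSectionVars false

open Set Filter Topology Complex MeasureTheory Metric Function
open scoped ContDiff

namespace Crest.Agent.X261.BT

open Crest.Agent.R275.Geo Crest.Agent.R275.EDR890
open Crest.Agent.R273.Hess_333
open Crest.Agent.R281.Rich_710 (PshL dav)
open Crest.Agent.R281.Kp_487 (KP pot wt_contDiffAt)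
open Crest.Agent.R257.HoB_843 (lvE)
open Crest.Agent.R257.Glue2_101 (lvE_const)

noncomputable section

variable {n : ℕ} {M : Type} [TopologicalSpace M] {A : Atl n M}

theorem fderiv_of_inv {E F : Type*} [NormedAddCommGroup E] [NormedSpace ℝ E]
    [NormedAddCommGroup F] [NormedSpace ℝ F] {f : E → F} {w v : E}
    (h : ∀ s : ℝ, f (w + s • v) = f w) : fderiv ℝ f w v = 0 := by
  by_cases hd : DifferentiableAt ℝ f w
  · rw [← hd.lineDeriv_eq_fderiv, lineDeriv]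
    simp [h]
  · rw [fderiv_zero_of_not_differentiableAt hd, zero_apply]

theorem det_hess_zc (g : Cn n → ℝ) (w : Cn (n + 1)) : (hess (fun w => g (zc w)) w).det = 0 := by
  have h1 : ∀ (c : ℂ) (y : Cn (n + 1)),
      fderiv ℝ (cu fun w => g (zc w)) y (EuclideanSpace.single 0 c) = 0 := fun c y =>
    fderiv_of_inv fun s => by
      have : zc (y + s • EuclideanSpace.single 0 c) = zc y := by
        ext a; simp
      simp only [cu, this]
  have h2 : wd (true, (0 : Fin (n + 1))) (cu fun w => g (zc w)) = fun _ => 0 := by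
    funext y
    simp only [wd, wdL, h1, smul_zero, add_zero]
  exact Matrix.det_eq_zero_of_column_eq_zero 0 fun a => by rw [hess_apply, h2, wd_const]

theorem psh_re (D : Set ℂ) (hD : IsOpen D) (α β : ℂ) : PshL D fun t => (α + t * β).re := by
  let L : ℂ →L[ℝ] ℝ := reCLM.comp ((ContinuousLinearMap.mul ℝ ℂ).flip β)
  have h : PshL D fun t => α.re + L t :=
    PL.of_lvE hD fun p _ => ⟨by fun_prop, fun v => by
      have e1 : fderiv ℝ (fun p => α.re + L p) = fun _ => L :=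
        funext fun p => (L.hasFDerivAt.const_add α.re).fderiv
      simp [lvE, e1]⟩
  exact h

/-- sub-mean value inequality up to the boundary -/
theorem le_avg_closed {e g : ℂ → ℝ} (hp : PshL (ball 0 1) e) (hc : ContinuousOn e (closedBall 0 1))
    (hg : Continuous g) (h : ∀ w : ℂ, ‖w‖ = 1 → e w ≤ g w) : e 0 ≤ Real.circleAverage g 0 1 := by
  refine le_of_forall_pos_le_add fun ε hε => ?_
  obtain ⟨η, hη, h1⟩ := Metric.uniformContinuousOn_iff.1
    ((isCompact_closedBall (0 : ℂ) 1).uniformContinuousOn_of_continuous hc) ε hε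
  set r : ℝ := 1 - min (η / 2) (1 / 2) with hr
  have m1 := min_le_left (η / 2) (1 / 2)
  have m2 := min_le_right (η / 2) (1 / 2)
  have m3 : 0 < min (η / 2) (1 / 2) := by positivity
  have hI : PL.In (ball (0 : ℂ) 1) 0 (r : ℂ) := fun w hw => by
    rw [zero_add, mem_ball_zero_iff, norm_smul, norm_real, Real.norm_of_nonneg (by linarith)]
    exact (mul_le_of_le_one_left (by linarith) hw).trans_lt (by linarith)
  have hc' := hc.mono ball_subset_closedBall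
  have h2 : Real.circleAverage (fun w => g w + ε) 0 1 = Real.circleAverage g 0 1 + ε := by
    rw [Real.circleAverage_fun_add hg.continuousOn.circleIntegrable' (circleIntegrable_const _ _ _),
      Real.circleAverage_const]
  rw [← h2]
  refine (PL.le_dav isOpen_ball hc' hp hI).trans (Real.circleAverage_mono (PL.circ hc' hI)
    (hg.add continuous_const).continuousOn.circleIntegrable' fun w hw => ?_)
  have hw1 : ‖w‖ = 1 := by simpa using hw
  have h3 := h1 _ (ball_subset_closedBall (hI w hw1.le)) w (mem_closedBall_zero_iff.2 hw1.le) (by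
    rw [dist_eq_norm, zero_add, smul_eq_mul, ← mul_sub_one, norm_mul, hw1, one_mul,
      ← ofReal_one, ← ofReal_sub, norm_real, Real.norm_eq_abs, abs_of_nonpos (by linarith)]
    linarith)
  have h4 := h w hw1
  rw [Real.dist_eq] at h3
  linarith [(abs_lt.1 h3).2]

variable {H : KP A} {V W : ℂ → M → ℝ}

namespace JC

theorem qp (h : JC H V) : QP (pbd 0 H) (ball 0 1 ×ˢ univ) fun p => V p.1 p.2 := h.jp.qp

theorem cpt (h : JC H V) : ∃ K : Set M, IsCompact K ∧ ∀ w : ℂ, ‖w‖ ≤ 1 → ∀ x ∉ K, V w x = 0 := by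
  obtain ⟨K, hK, h0⟩ := h.jp.cpt
  refine ⟨K, hK, fun w hw x hx => ?_⟩
  have h1 : ContinuousOn (fun t => V t x) (closure (ball (0 : ℂ) 1)) := by
    rw [closure_ball _ one_ne_zero]
    exact h.cont.comp (Continuous.prodMk_left x).continuousOn fun t ht => ⟨ht, trivial⟩
  exact (show EqOn (fun t => V t x) (fun _ => 0) (ball 0 1) from fun t ht => h0 t ht x hx).of_subset_closure
    h1 continuousOn_const subset_closure Subset.rfl
    (by rw [closure_ball _ one_ne_zero]; exact mem_closedBall_zero_iff.2 hw)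

theorem mp (h : JC H V) (x : M) (c : ℝ) (hc : ∀ w : ℂ, ‖w‖ = 1 → V w x ≤ c) : V 0 x ≤ c := by
  have h1 := le_avg_closed (e := fun t => V t x) (g := fun _ => c)
    (PL.congr isOpen_ball ((h.qp.tslice x).mono fun t ht => ⟨ht, trivial⟩) fun t _ => by simp)
    (h.cont.comp (Continuous.prodMk_left x).continuousOn fun t ht => ⟨ht, trivial⟩)
    continuous_const hc
  rwa [Real.circleAverage_const] at h1

variable [T2Space M]

theorem const {f : M → ℝ} (hf : PP H f) (h0 : f ≤ 0) : JC H fun _ => f :=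
  ⟨JP.of_qp isOpen_ball ((hf.qp.lift' le_rfl).mono (isOpen_ball.prod isOpen_univ) (subset_univ _))
    hf.cpt fun _ _ _ hx => image_eq_zero_of_notMem_tsupport hx,
    (hf.qp.continuous.comp continuous_snd).continuousOn, fun _ _ => ⟨hf, h0⟩⟩

variable [MeasurableSpace M] [BorelSpace M] [Countable A.ι]

theorem sups (h : JC H V) (h' : JC H W) (α β : ℂ)
    (hs : ∀ w : ℂ, ‖w‖ ≤ 1 → 0 ≤ (α + w * β).re) :
    JC H fun w => V w ⊔ fun x => W w x - (α + w * β).re := by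
  obtain ⟨K, hK, h0⟩ := h.cpt
  obtain ⟨L, hL, h1⟩ := h'.cpt
  have q := h.qp.max (h'.qp.add_t isOpen_univ (fun _ _ => trivial)
    (τ := fun t => (-α + t * -β).re) (by fun_prop) (psh_re _ isOpen_univ _ _))
  refine ⟨JP.of_qp isOpen_ball (q.congr fun p _ => ?_) (hK.union hL) fun t ht x hx => ?_,
    h.cont.sup (h'.cont.sub (by fun_prop)), fun w hw =>
      ⟨(h'.mem w hw).1.maxs (h.mem w hw).1 (hs w hw), fun x => max_le ((h.mem w hw).2 x) ?_⟩⟩
  · change max _ _ = max _ _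
    congr 1
    simp only [add_re, neg_re, mul_neg]; ring
  · have ht' := (mem_ball_zero_iff.1 ht).le
    change max (V t x) (W t x - (α + t * β).re) = _
    rw [h0 t ht' x fun h2 => hx (Or.inl h2), h1 t ht' x fun h2 => hx (Or.inr h2)]
    exact max_eq_left (by linarith [hs t ht'])
  · have h2 : W w x ≤ 0 := (h'.mem w hw).2 x
    change _ ≤ (0 : ℝ)
    linarith [hs w hw]


theorem tr (hH : H.Semipos) (h : JC H V) (α β : ℂ)
    (hs : ∀ w : ℂ, ‖w‖ ≤ 1 → 0 ≤ (α + w * β).re) :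
    JC H fun w => V w ⊔ fun _ => -(α + w * β).re := by
  simpa only [zero_sub] using h.sups (const (PP.zero hH) le_rfl) α β hs

end JC

variable [T2Space M] [MeasurableSpace M] [BorelSpace M] [Countable A.ι]

theorem MAo_pbd_zero (hH : H.Semipos) {U : Set (ℂ × M)} (hU : IsOpen U) :
    MAo (pbd 0 H) U (fun _ => 0) = 0 := by
  have q : QP (pbd 0 H) U fun _ => 0 := QP.const (pbd_semi le_rfl hH) hU 0
  have c := MX_cmp hU (H := fun _ => pbd 0 H) (φ := fun _ _ => 0) fun _ => q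
  rw [MAo, MX_eq, c.smul_eq c (c := 0) fun i => ?_, zero_smul]
  have e : pot (pbd 0 H) (fun _ => 0) i = fun w => H.wt i.1 (zc w) := by
    funext w; rw [pot_apply, wt_pbd]; ring
  rw [zero_smul, ma_smooth_eq (isOpen_chU hU i) (fun _ => q.cp i) fun _ w hw => by
    rw [e]; exact smR_zc (wt_contDiffAt H i.1 hw.1.2)]
  simp only [mh_same, e, det_hess_zc, zero_re, mul_zero, ENNReal.ofReal_zero]
  exact withDensity_zero

theorem En_psh (hH : H.Pos) {δ : ℝ} (hδ : 0 ≤ δ) {D : Set ℂ} (hD : IsOpen D) {K : Set M}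
    (hK : IsCompact K) {a b : ℂ × M → ℝ} (ha : QP (pbd δ H) (D ×ˢ univ) a)
    (hb : QP (pbd δ H) (D ×ˢ univ) b) (ea : ∀ t ∈ D, ∀ x ∉ K, a (t, x) = 0)
    (eb : ∀ t ∈ D, ∀ x ∉ K, b (t, x) = 0)
    (hm : MAo (pbd δ H) (D ×ˢ univ) b ≤ MAo (pbd δ H) (D ×ˢ univ) a) :
    ContinuousOn (fun t => En H (fun x => a (t, x)) - En H fun x => b (t, x)) D ∧
      PshL D fun t => En H (fun x => a (t, x)) - En H fun x => b (t, x) := by
  obtain ⟨h1, h2⟩ := Er_psh hH hδ hD hK ha hb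
    (fun t ht x hx => (ea t ht x hx).trans (eb t ht x hx).symm) hm
  have e : ∀ t ∈ D, En H (fun x => a (t, x)) - En H (fun x => b (t, x)) =
      Er H (fun x => a (t, x)) fun x => b (t, x) := fun t ht =>
    En_sub hH (PP.of_cpt (ha.slice' ht) hK (ea t ht)) (PP.of_cpt (hb.slice' ht) hK (eb t ht))
  exact ⟨h1.congr e, PL.congr hD h2 e⟩

/-- the energy is subharmonic along jointly psh families -/
theorem JP.en_psh (hH : H.Pos) {D : Set ℂ} (h : JP H D V) :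
    ContinuousOn (fun t => En H (V t)) D ∧ PshL D fun t => En H (V t) := by
  obtain ⟨K, hK, h0⟩ := h.cpt
  have ho : IsOpen (D ×ˢ (univ : Set M)) := h.op.prod isOpen_univ
  have := En_psh hH le_rfl h.op hK h.qp (QP.const (pbd_semi le_rfl (pos_semi hH)) ho 0) h0
    (fun _ _ _ _ => rfl) (by rw [MAo_pbd_zero (pos_semi hH) ho]; exact Measure.zero_le _)
  simpa only [show En H (fun _ => 0) = 0 from En_zero H, sub_zero] using this

theorem fib_En (hH : H.Pos) : DiscX.Fib H (En H) := fun d hd D K b hD hK hb h0 hm => by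
  have := En_psh hH hd.le hD hK (QP.const (pbd_semi hd.le (pos_semi hH)) hb.op 0) hb
    (fun _ _ _ _ => rfl) h0 hm
  simpa only [show En H (fun _ => 0) = 0 from En_zero H, zero_sub] using this

theorem JC.en_cont (hH : H.Pos) (h : JC H V) :
    ContinuousOn (fun t => En H (V t)) (closedBall 0 1) := by
  obtain ⟨K, hK, h0⟩ := h.cpt
  intro t ht
  exact En_tendsto hH (h.mem t (mem_closedBall_zero_iff.1 ht)).1 hK
    (eventually_nhdsWithin_of_forall fun s hs =>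
      ⟨(h.mem s (mem_closedBall_zero_iff.1 hs)).1.qp, h0 s (mem_closedBall_zero_iff.1 hs)⟩)
    (h0 t (mem_closedBall_zero_iff.1 ht)) (tuo_slice h.cont ht hK)

/-- **DISC (i)** : the field `J_sub` with `D = -En H` -/
theorem JC.sub (hH : H.Pos) (h : JC H V) (g : ℂ → ℝ) (hg : Continuous g)
    (hb : ∀ w : ℂ, ‖w‖ = 1 → - -En H (V w) ≤ g w) : - -En H (V 0) ≤ Real.circleAverage g 0 1 := by
  simp only [neg_neg] at hb ⊢
  exact le_avg_closed (h.jp.en_psh hH).2 (h.en_cont hH) hg hb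

/-- the field `lip` with `D = -En H` -/
theorem En_lip_field (hH : H.Pos) (K : Set M) (hK : IsCompact K) (T : ℝ) :
    ∃ C : ℝ, 0 ≤ C ∧ ∀ f, PP H f ∧ f ≤ 0 → ∀ g, PP H g ∧ g ≤ 0 → (∀ x ∉ K, f x = 0) →
      (∀ x ∉ K, g x = 0) → (∀ x, -T ≤ f x) → (∀ x, -T ≤ g x) → ∀ ε : ℝ, 0 ≤ ε →
      (∀ x, g x ≤ f x + ε) → -En H f ≤ -En H g + C * ε :=
  ⟨(MA H 0).real K, measureReal_nonneg, fun f hf g hg f0 g0 _ _ ε _ h => by
    linarith [En_lip hH hg.1 hf.1 hK g0 f0 fun x _ => h x]⟩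

/-- **DISC (ii)** : the field `J_ex` with `D = -En H` -/
theorem JC.ex (hH : H.Pos)
    (bfun : ∀ K : Set M, IsCompact K → ∀ T : ℝ, ∃ b, (PP H b ∧ b ≤ 0) ∧ ∀ x ∈ K, b x ≤ -T)
    (ι : Type) [Fintype ι] (β : ι → M → ℝ) (ρ : ι → ℂ → ℝ) (hβ : ∀ i, PP H (β i) ∧ β i ≤ 0)
    (hρ : ∀ i, Continuous (ρ i)) (hρ0 : ∀ i w, 0 ≤ ρ i w) (hρ1 : ∀ w, ∑ i, ρ i w = 1)
    (ε : ℝ) (hε : 0 < ε) :
    ∃ V, JC H V ∧ (∀ w : ℂ, ‖w‖ = 1 → V w ≤ ∑ i, ρ i w • β i) ∧
      -En H (V 0) ≤ Real.circleAverage (fun w => -En H (∑ i, ρ i w • β i)) 0 1 + ε :=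
  DiscX.jex_of hH (fib_En hH) (En_lip_field hH) bfun ι β ρ hβ hρ hρ0 hρ1 ε hε

/-- all disc facts -/
theorem dsc (hH : H.Pos) : Dsc H where
  fib := fib_En hH
  sups _ _ h h' := h.sups h'
  mp _ h := h.mp
  sub _ h g hg hb := le_avg_closed (h.jp.en_psh hH).2 (h.en_cont hH) hg hb

end

end Crest.Agent.X261.BT
end

-- ▼ part X261/Pole/Inst
section

/-!
# Row 261, package POLE (helper59), file `Inst`: the energy system of a Kähler form,
plaque charts from foliated charts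
-/

set_option autoImplicit false

open Set Filter Topology Metric

namespace Crest.Agent.X261.Pole

open Crest.Agent.X261.Two Crest.Agent.X261.BT
open Crest.Agent.R275.Geo
open Crest.Agent.R281.Kp_487 (KP pot)
open Crest.Agent.R273.Fock_243 (FI)

noncomputable section

variable {n : ℕ} {M : Type} [TopologicalSpace M] {A : Atl n M}

section inst

variable [MeasurableSpace M] [BorelSpace M] [Countable A.ι] [T2Space M] {H : KP A}

/-- the energy system of `H` -/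
def esOf (hH : H.Pos) (hS : Slow H) : ES M where
  toDS := dsOf hH hS (dsc hH)
  P := PE H
  P_mem := (lsOf hH hS).P_mem
  P_le := (lsOf hH hS).P_le
  P_le' := (lsOf hH hS).P_le'
  le_P := (lsOf hH hS).le_P
  s3 := (lsOf hH hS).s3
  cvx := (lsOf hH hS).cvx





theorem geo_esOf (hH : H.Pos) (hS : Slow H) : Geo (esOf hH hS).toDS H :=
  ⟨fun _ hf => hf.1.qp, fun _ h1 h2 => ⟨h1, h2⟩, fun _ hV => hV.cont, fun _ hV => hV.jp.psh⟩

end inst

section fch

variable {G : Type} [Group G] [MulAction G M] {p r : ℕ} {𝒯 : Top.Tube A G p}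
  {ε : A.ι → M → FI n → ℂ}

/-- the plaque chart of a foliated chart -/
def pch (C : Top.FCh 𝒯 r ε) : PCh A p r where
  i := C.i
  ψ q := A.e C.i (C.φ.symm q)
  hol := C.tgt ▸ C.hol'
  maps _ hq := (A.e C.i).map_source (C.sub (C.φ.map_target (C.tgt ▸ hq)))


theorem pch_pt (C : Top.FCh 𝒯 r ε) {q : Cn p × Cn r}
    (hq : q ∈ (ball 0 2 ×ˢ ball 0 2 : Set (Cn p × Cn r))) : (pch C).pt q = C.φ.symm q :=
  (A.e C.i).left_inv (C.sub (C.φ.map_target (C.tgt ▸ hq)))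




end fch

end

end Crest.Agent.X261.Pole
end

-- ▼ part X261/En/Fh
section

/-!
# Row 261, EN (helper54), file `Fh`: Harnack inequality along the fibres of a tube

* `qp_isPsh` : the potentials of a continuous quasi-psh function are psh;
* `prod_flat` : product coordinates for a holomorphic submersion;
* `fh` : the fibre Harnack inequality, uniformly in a tube.
-/

set_option autoImplicit false
set_option linter.unusedSectionVars false
set_option linter.dupNamespace false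

open Set Filter Topology Metric

namespace Crest.Agent.X261.En.Fh

open Crest.Agent.R275.Geo Crest.Agent.R275.Core144
open Crest.Agent.R281.Kp_487 (KP pot)
open Crest.Agent.R281.ThnM_280 (Crit)
open Crest.Agent.X261.Psh Crest.Agent.X261.BT Crest.Agent.X261.Ans
open Crest.Agent.X261.Top (HolV)

noncomputable section

variable {n p : ℕ} {M : Type} [TopologicalSpace M] {A : Atl n M} {H : KP A} {T : Set M}
  {π : M → Cn p}

theorem qp_isPsh {U : Set M} {v : M → ℝ} (h : QP H U v) (i : A.ι) :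
    IsPsh (chU A U i) fun z => (pot H v i z : EReal) :=
  isPsh_of_pshL (isOpen_chU h.op i) (contOn_pot h.cont i) (h.psh i)

/-- product coordinates for a holomorphic submersion -/
theorem prod_flat {E F : Type} [NormedAddCommGroup E] [NormedSpace ℂ E] [FiniteDimensional ℂ E]
    [NormedAddCommGroup F] [NormedSpace ℂ F] [FiniteDimensional ℂ F] {g : E → F} {x : E}
    (hg : AnalyticAt ℂ g x) (hs : Function.Surjective (fderiv ℂ g x)) :
    ∃ (s : ℕ) (L : E →L[ℂ] (Fin s → ℂ)) (σ : F × (Fin s → ℂ) → E), AnalyticAt ℂ σ (g x, L x) ∧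
      (∀ᶠ y in 𝓝 x, σ (g y, L y) = y) ∧ ∀ᶠ q in 𝓝 (g x, L x), g (σ q) = q.1 ∧ L (σ q) = q.2 := by
  obtain ⟨s, L, hsd, hL⟩ := Rg.exists_compl hs
  have hG : AnalyticAt ℂ (fun y => (g y, L y)) x := hg.prod (L.analyticAt x)
  have hG' : HasFDerivAt (fun y => (g y, L y)) ((fderiv ℂ g x).prod L) x :=
    hg.differentiableAt.hasFDerivAt.prodMk L.hasFDerivAt
  obtain ⟨σ, h0, h1, h2⟩ := Rg.exists_inv hG (by
      rw [hG'.fderiv, injective_iff_map_eq_zero]
      exact fun v hv => hL v (congrArg Prod.fst hv) (congrArg Prod.snd hv))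
    (by rw [Module.finrank_prod, ← hsd]; simp)
  exact ⟨s, L, σ, h0, h1, h2.mono fun q hq => ⟨congrArg Prod.fst hq, congrArg Prod.snd hq⟩⟩

variable (H T π) in
/-- propagation of smallness along the fibres near the fibre over `t₀` -/
def EP (t₀ : Cn p) (O O' : Set M) : Prop :=
  ∃ θ C : ℝ, 0 < θ ∧ θ ≤ 1 ∧ 0 ≤ C ∧ ∀ᶠ t in 𝓝 t₀, ∀ v, QP H T v → ∀ a b : ℝ, a ≤ b →
    (∀ y ∈ T, π y = t → v y ≤ b) → (∀ y ∈ T, π y = t → y ∈ O → v y ≤ a) →
    ∀ y ∈ T, π y = t → y ∈ O' → v y ≤ b - θ * (b - a) + C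

variable {t₀ : Cn p} {O O' O'' : Set M}

theorem EP.of_subset (h : O' ⊆ O) : EP H T π t₀ O O' :=
  ⟨1, 0, one_pos, le_rfl, le_rfl, Eventually.of_forall fun t v _ a b _ _ h2 y hy hy' hy'' => by
    simpa using h2 y hy hy' (h hy'')⟩

theorem EP.trans (h : EP H T π t₀ O O') (h' : EP H T π t₀ O' O'') : EP H T π t₀ O O'' := by
  obtain ⟨θ, C, h1, h2, h3, h4⟩ := h
  obtain ⟨θ', C', h1', h2', h3', h4'⟩ := h'
  refine ⟨θ' * θ, θ' * C + C', by positivity, by nlinarith, by positivity, ?_⟩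
  filter_upwards [h4, h4'] with t h4 h4' v hv a b hab hb ha y hy hy' hy''
  have h5 := h4' v hv (min b (b - θ * (b - a) + C)) b (min_le_left _ _) hb (fun y hy hy' hy'' =>
    le_min (hb y hy hy') (h4 v hv a b hab hb ha y hy hy' hy'')) y hy hy' hy''
  have h6 := mul_le_mul_of_nonneg_left (min_le_right b (b - θ * (b - a) + C)) h1'.le
  linarith

theorem EP.union (h : EP H T π t₀ O O') (h' : EP H T π t₀ O O'') :
    EP H T π t₀ O (O' ∪ O'') := by
  obtain ⟨θ, C, h1, h2, h3, h4⟩ := h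
  obtain ⟨θ', C', h1', h2', h3', h4'⟩ := h'
  refine ⟨min θ θ', max C C', lt_min h1 h1', (min_le_left _ _).trans h2,
    h3.trans (le_max_left _ _), ?_⟩
  filter_upwards [h4, h4'] with t h4 h4' v hv a b hab hb ha y hy hy' hy''
  have hba : 0 ≤ b - a := by linarith
  rcases hy'' with hy'' | hy''
  · linarith [h4 v hv a b hab hb ha y hy hy' hy'',
      mul_le_mul_of_nonneg_right (min_le_left θ θ') hba, le_max_left C C']
  · linarith [h4' v hv a b hab hb ha y hy hy' hy'',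
      mul_le_mul_of_nonneg_right (min_le_right θ θ') hba, le_max_right C C']

theorem ep_conn {Z₀ : Set M} (hc : IsPreconnected Z₀)
    (hM : ∀ z ∈ Z₀, ∃ V ∈ 𝓝 z, ∀ O', IsOpen O' → (O' ∩ V ∩ Z₀).Nonempty → EP H T π t₀ O' V)
    (hO : IsOpen O) (hne : (O ∩ Z₀).Nonempty) : ∀ z ∈ Z₀, ∃ N ∈ 𝓝 z, EP H T π t₀ O N := by
  intro z hz
  by_contra hcon
  obtain ⟨x, hx, ⟨N, hN, h1⟩, V, hV, h2, h3⟩ := hc {z | ∃ N ∈ 𝓝 z, EP H T π t₀ O N}
    {z | ∃ V ∈ 𝓝 z, (∀ O', IsOpen O' → (O' ∩ V ∩ Z₀).Nonempty → EP H T π t₀ O' V) ∧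
      ¬ EP H T π t₀ O V}
    (isOpen_iff_mem_nhds.2 fun x ⟨N, hN, h⟩ =>
      mem_of_superset (eventually_mem_nhds_iff.2 hN) fun y hy => ⟨N, hy, h⟩)
    (isOpen_iff_mem_nhds.2 fun x ⟨N, hN, h⟩ =>
      mem_of_superset (eventually_mem_nhds_iff.2 hN) fun y hy => ⟨N, hy, h⟩)
    (fun x hx => by
      obtain ⟨V, hV, h⟩ := hM x hx
      by_cases h' : EP H T π t₀ O V
      · exact Or.inl ⟨V, hV, h'⟩
      · exact Or.inr ⟨V, hV, h, h'⟩)
    (by
      obtain ⟨x, hx⟩ := hne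
      exact ⟨x, hx.2, O, hO.mem_nhds hx.1, EP.of_subset subset_rfl⟩)
    (by
      obtain ⟨V, hV, h⟩ := hM z hz
      exact ⟨z, hz, V, hV, h, fun h' => hcon ⟨V, hV, h'⟩⟩)
  exact h3 ((h1.trans (EP.of_subset interior_subset)).trans
    (h2 _ isOpen_interior ⟨x, ⟨mem_interior_iff_mem_nhds.2 hN, mem_of_mem_nhds hV⟩, hx⟩))

/-- the local step -/
theorem ep_loc (hT : IsOpen T) (hol : HolV A T π) (subm : Crit A T π = ∅) {z : M} (hz : z ∈ T)
    (hzt : π z = t₀) :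
    ∃ V ∈ 𝓝 z, ∀ O', IsOpen O' → (O' ∩ V ∩ {y | y ∈ T ∧ π y = t₀}).Nonempty →
      EP H T π t₀ O' V := by
  obtain ⟨i, hi⟩ := A.cover z
  have hs := Brg.subm_of_crit hT hol subm hz
  have hg : AnalyticAt ℂ (fun w => π ((A.e i).symm w)) (A.e i z) := hs.1.2 i () hi (mem_univ _)
  obtain ⟨s, L, σ, h0, h1, h2⟩ := prod_flat hg (hs.2 i () hi (mem_univ _))
  rw [(A.e i).left_inv hi, hzt] at h0 h2
  set c := L (A.e i z) with hc
  have hσ0 : σ (t₀, c) = A.e i z := by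
    have := h1.self_of_nhds
    rwa [(A.e i).left_inv hi, hzt] at this
  have hch : chU A T i ∈ 𝓝 (A.e i z) := (isOpen_chU hT i).mem_nhds (mem_chU hi hz)
  have hwt : ContinuousAt (H.wt i) (A.e i z) :=
    (H.sm i).continuousOn.continuousAt ((A.e i).open_target.mem_nhds ((A.e i).map_source hi))
  have ht : Tendsto σ (𝓝 (t₀, c)) (𝓝 (A.e i z)) := hσ0 ▸ h0.continuousAt.tendsto
  have h3 : ∀ᶠ q in 𝓝 (t₀, c), |H.wt i (σ q) - H.wt i (A.e i z)| < 1 :=
    ht.eventually (hwt.eventually (ball_mem_nhds _ one_pos))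
  obtain ⟨δ, hδ, h4⟩ := Metric.eventually_nhds_iff_ball.1
    (((h2.and h0.eventually_analyticAt).and (ht.eventually hch)).and h3)
  have hcont : ContinuousAt (fun y => (π y, L (A.e i y))) z :=
    hs.1.1.prodMk (L.continuous.continuousAt.comp ((A.e i).continuousAt hi))
  have h5 : ∀ᶠ y in 𝓝 z, (π y, L (A.e i y)) ∈ ball (t₀, c) (δ / 2) :=
    hcont.eventually (by rw [← hzt]; exact ball_mem_nhds _ (half_pos hδ))
  have h6 : ∀ᶠ y in 𝓝 z, σ (π y, L (A.e i y)) = A.e i y := by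
    filter_upwards [((A.e i).continuousAt hi).eventually h1, (A.e i).open_source.mem_nhds hi]
      with y hy hy'
    rwa [(A.e i).left_inv hy'] at hy
  refine ⟨_, (h5.and h6).and ((A.e i).open_source.mem_nhds hi), ?_⟩
  rintro O' hO' ⟨y₁, ⟨hy1, ⟨hy2, hy3⟩, hy4⟩, hy5, hy6⟩
  rw [hy6] at hy2 hy3
  have hb : ∀ {t : Cn p} {w : Fin s → ℂ}, t ∈ ball t₀ δ → w ∈ ball c δ → (t, w) ∈ ball (t₀, c) δ :=
    fun h h' => by rw [← ball_prod_same]; exact ⟨h, h'⟩
  have hw1 : L (A.e i y₁) ∈ ball c (δ / 2) := by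
    rw [← ball_prod_same] at hy2
    exact hy2.2
  have hw1' : L (A.e i y₁) ∈ ball c δ := ball_subset_ball (by linarith) hw1
  have h7 := h4 _ (hb (mem_ball_self hδ) hw1')
  have h8 : ∀ᶠ q in 𝓝 (t₀, L (A.e i y₁)), (A.e i).symm (σ q) ∈ O' := by
    refine (((A.e i).continuousAt_symm h7.1.2.1).comp h7.1.1.2.continuousAt).eventually
      (hO'.mem_nhds ?_)
    rwa [Function.comp_apply, hy3, (A.e i).left_inv hy4]
  obtain ⟨η, hη, h9⟩ := Metric.eventually_nhds_iff_ball.1 h8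
  obtain ⟨θ, k1, k2, k3⟩ := Hk.conn_prp (D := ball c δ) isOpen_ball
    (convex_ball c δ).isPreconnected (O := ball (L (A.e i y₁)) η) isOpen_ball
    ⟨_, mem_ball_self hη, hw1'⟩ (isCompact_closedBall c (δ / 2))
    (closedBall_subset_ball (by linarith))
  refine ⟨θ, 2, k1, k2, by norm_num, ?_⟩
  filter_upwards [ball_mem_nhds t₀ hδ, ball_mem_nhds t₀ hη] with t ht1 ht2 v hv a b hab hb' ha y hy
    hyt ⟨⟨hy7, hy8⟩, hy9⟩
  rw [hyt] at hy7 hy8
  have hu : IsPsh (ball c δ) fun w => (pot H v i (σ (t, w)) : EReal) :=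
    Hol.comp_hol (isOpen_chU hT i) (qp_isPsh hv i) (φ := fun w => σ (t, w))
      (fun w hw => ((h4 _ (hb ht1 hw)).1.1.2.differentiableAt.comp w
        ((differentiableAt_const t).prodMk differentiableAt_id)).differentiableWithinAt)
      fun w hw => (h4 _ (hb ht1 hw)).1.2
  have k4 := k3 _ (a + (H.wt i (A.e i z) + 1)) (b + (H.wt i (A.e i z) + 1)) hu (by linarith)
    (fun w hw => EReal.coe_le_coe_iff.2 (by
      have e := h4 _ (hb ht1 hw)
      have := hb' _ e.1.2.2 e.1.1.1.1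
      rw [pot_apply]
      linarith [(abs_lt.1 e.2).2]))
    (fun w hw hw' => EReal.coe_le_coe_iff.2 (by
      have e := h4 _ (hb ht1 hw)
      have := ha _ e.1.2.2 e.1.1.1.1 (h9 (t, w) (by rw [← ball_prod_same]; exact ⟨ht2, hw'⟩))
      rw [pot_apply]
      linarith [(abs_lt.1 e.2).2]))
    (L (A.e i y)) (by
      rw [← ball_prod_same] at hy7
      exact ball_subset_closedBall hy7.2)
  have e := (h4 _ (ball_subset_ball (by linarith) hy7)).2
  rw [EReal.coe_le_coe_iff, pot_apply, hy8, (A.e i).left_inv hy9] at k4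
  rw [hy8] at e
  linarith [(abs_lt.1 e).1]

theorem fib_compact [T2Space M] (cont : ContinuousOn π T)
    (prop : ∀ r < (1 : ℝ), IsCompact {y | y ∈ T ∧ ‖π y‖ ≤ r}) {K : Set (Cn p)} (hK : IsCompact K)
    (h1 : K ⊆ ball 0 1) : IsCompact {y | y ∈ T ∧ π y ∈ K} := by
  obtain ⟨r, hr, h2⟩ := exists_lt_subset_ball hK.isClosed h1
  have h3 := prop r hr
  have h4 : IsClosed ({y | y ∈ T ∧ ‖π y‖ ≤ r} ∩ π ⁻¹' K) :=
    (cont.mono fun y hy => hy.1).preimage_isClosed_of_isClosed h3.isClosed hK.isClosed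
  convert h3.of_isClosed_subset h4 inter_subset_left using 1
  ext y
  exact ⟨fun h => ⟨⟨h.1, (mem_ball_zero_iff.1 (h2 h.2)).le⟩, h.2⟩, fun h => ⟨h.1.1, h.2⟩⟩

/-- nearby fibres stay in a neighbourhood of the central fibre -/
theorem ev_fib [T2Space M] (cont : ContinuousOn π T)
    (prop : ∀ r < (1 : ℝ), IsCompact {y | y ∈ T ∧ ‖π y‖ ≤ r}) (h1 : ‖t₀‖ < 1) {U : Set M}
    (hU : IsOpen U) (hs : ∀ y ∈ T, π y = t₀ → y ∈ U) :
    ∀ᶠ t in 𝓝 t₀, ∀ y ∈ T, π y = t → y ∈ U := by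
  obtain ⟨r, hr1, hr2⟩ := exists_between h1
  have h2 := ((prop r hr2).diff hU).image_of_continuousOn (cont.mono fun y hy => hy.1.1)
  have h3 : t₀ ∈ (π '' ({y | y ∈ T ∧ ‖π y‖ ≤ r} \ U))ᶜ := fun ⟨y, hy, e⟩ => hy.2 (hs y hy.1.1 e)
  filter_upwards [h2.isClosed.isOpen_compl.mem_nhds h3,
    continuous_norm.continuousAt.eventually (gt_mem_nhds hr1)] with t ht ht' y hy e
  by_contra hc
  exact ht ⟨y, ⟨⟨hy, by rw [e]; exact ht'.le⟩, hc⟩, e⟩

/-- **fibre Harnack inequality**, filter form -/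
theorem fh' [T2Space M] (H : KP A) (hT : IsOpen T) (hol : HolV A T π) (cont : ContinuousOn π T)
    (subm : Crit A T π = ∅) (prop : ∀ r < (1 : ℝ), IsCompact {y | y ∈ T ∧ ‖π y‖ ≤ r})
    {x₀ : M} (hx₀ : x₀ ∈ T) (h1 : ‖π x₀‖ < 1)
    (conn : IsPreconnected {z | z ∈ T ∧ π z = π x₀}) (hO : O ∈ 𝓝 x₀) :
    ∃ C : ℝ, 0 ≤ C ∧ ∀ᶠ t in 𝓝 (π x₀), ∀ v, QP H T v → ∀ b : ℝ,
      (∀ z ∈ O, z ∈ T → π z = t → v z ≤ b) → ∀ x ∈ T, π x = t → v x ≤ b + C := by
  have hF : ∀ t : Cn p, ‖t‖ < 1 → IsCompact {z | z ∈ T ∧ π z = t} := fun t ht =>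
    fib_compact cont prop (isCompact_singleton (x := t))
      (singleton_subset_iff.2 (mem_ball_zero_iff.2 ht))
  have k1 := ep_conn (H := H) (T := T) (π := π) (t₀ := π x₀) conn
    (fun z hz => ep_loc hT hol subm hz.1 hz.2) (O := interior O) isOpen_interior
    ⟨x₀, mem_interior_iff_mem_nhds.2 hO, hx₀, rfl⟩
  obtain ⟨U, hU, hs, θ, C, k2, k3, k4, k5⟩ := (hF _ h1).induction_on
    (p := fun S => ∃ U, IsOpen U ∧ S ⊆ U ∧ EP H T π (π x₀) (interior O) U)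
    ⟨∅, isOpen_empty, subset_rfl, EP.of_subset (empty_subset _)⟩
    (fun _ _ hst ⟨U, h1, h2, h3⟩ => ⟨U, h1, hst.trans h2, h3⟩)
    (fun _ _ ⟨U, h1, h2, h3⟩ ⟨U', h1', h2', h3'⟩ =>
      ⟨U ∪ U', h1.union h1', union_subset_union h2 h2', h3.union h3'⟩)
    (fun z hz => by
      obtain ⟨N, hN, h⟩ := k1 z hz
      exact ⟨interior N, mem_nhdsWithin_of_mem_nhds (interior_mem_nhds.2 hN), interior N,
        isOpen_interior, subset_rfl, h.trans (EP.of_subset interior_subset)⟩)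
  refine ⟨C / θ, by positivity, ?_⟩
  filter_upwards [k5, ev_fib cont prop h1 hU fun y hy e => hs ⟨hy, e⟩,
    continuous_norm.continuousAt.eventually (gt_mem_nhds h1)] with t k5 k6 k7 v hv b hb x hx e
  obtain ⟨y, hy, hm⟩ := (hF t k7).exists_isMaxOn ⟨x, hx, e⟩ (hv.cont.mono fun y hy => hy.1)
  have k8 : v x ≤ v y := hm ⟨hx, e⟩
  have k9 : 0 ≤ C / θ := by positivity
  rcases le_total (v y) b with h | h
  · linarith
  · have := k5 v hv b (v y) h (fun z hz e => hm ⟨hz, e⟩)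
      (fun z hz e hz' => hb z (interior_subset hz') hz e) y hy.1 hy.2 (k6 y hy.1 hy.2)
    have k10 : v y - b ≤ C / θ := by rw [le_div_iff₀ k2]; linarith
    linarith


/-- the fibre Harnack inequality for the tubes of a `Tube` -/
theorem fh_tube [T2Space M] (H : KP A) {G : Type} [Group G] [MulAction G M]
    (𝒯 : Top.Tube A G p) {x : M} (hx : x ∈ 𝒯.M0) {x₀ : M} (hx₀ : x₀ ∈ 𝒯.T x) (hO : O ∈ 𝓝 x₀) :
    ∃ C : ℝ, 0 ≤ C ∧ ∀ᶠ y in 𝓝 x₀, ∀ v, QP H (𝒯.T x) v → ∀ b : ℝ,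
      (∀ z ∈ O, z ∈ 𝒯.W y → v z ≤ b) → ∀ z ∈ 𝒯.W y, v z ≤ b + C := by
  have h1 : ‖𝒯.π x x₀‖ < 1 := mem_ball_zero_iff.1 (𝒯.π_img x hx ▸ mem_image_of_mem _ hx₀)
  obtain ⟨C, hC, h⟩ := fh' H (𝒯.T_opn x hx) (𝒯.π_hol x hx) (𝒯.π_cont x hx) (𝒯.π_subm x hx)
    (𝒯.π_prop x hx) hx₀ h1 (𝒯.π_fib x hx x₀ hx₀ ▸ 𝒯.W_conn x₀ (𝒯.T_sub x hx hx₀)) hO
  have h2 := (𝒯.T_opn x hx).mem_nhds hx₀
  refine ⟨C, hC, ?_⟩
  filter_upwards [((𝒯.π_cont x hx).continuousAt h2).eventually h, h2] with y k1 k2 v hv b hb z hz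
  rw [𝒯.π_fib x hx y k2] at hb hz
  exact k1 v hv b (fun w h3 h4 h5 => hb w h3 ⟨h4, h5⟩) z hz.1 hz.2

end

end Crest.Agent.X261.En.Fh
end

-- ▼ part X261/Shp21/Fch

/-!
# Row 261, EN shape instance (helper21), file `Fch`

For a foliated chart `C` and the tube at `x₀`: the transverse map `Phi C x₀`, the shape
`Bm C x₀ t = (d Phi)⁻¹`, the frame identity `dW_t`, and `shape`, `crude`, `inc`.
-/

set_option autoImplicit false

open Set Filter Topology Metric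

namespace Crest.Agent.X261.Shp21

open Crest.Agent.X261.BT Crest.Agent.X261.Pole Crest.Agent.X261.Top
open Crest.Agent.X261.Pole2 (jd)
open Crest.Agent.R275.Geo
open Crest.Agent.R281.Kp_487 (KP pot)
open Crest.Agent.R273.Fock_243 (FI)
open Crest.Agent.R273.Map_835 (mt)

noncomputable section

variable {n : ℕ} {M : Type} [TopologicalSpace M] {A : Atl n M} {p r : ℕ}
  {G : Type} [Group G] [MulAction G M] {𝒯 : Tube A G p} {ε : A.ι → M → FI n → ℂ}

/-- the transverse map -/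
def Phi (C : FCh 𝒯 r ε) (x₀ : M) (t : Cn p) : Cn p := 𝒯.π x₀ (C.φ.symm (t, 0))

/-- the shape -/
def Bm (C : FCh 𝒯 r ε) (x₀ : M) (t : Cn p) : Cn p →L[ℂ] Cn p := (fderiv ℂ (Phi C x₀) t).inverse

/-- the transverse domain -/
def Vt (C : FCh 𝒯 r ε) (x₀ : M) : Set (Cn p) := {t | ‖t‖ < 2 ∧ C.φ.symm (t, 0) ∈ 𝒯.T x₀}

variable (C : FCh 𝒯 r ε) {x₀ x : M} {t : Cn p}

theorem mem_tgt {q : Cn p × Cn r} : q ∈ C.φ.target ↔ ‖q.1‖ < 2 ∧ ‖q.2‖ < 2 := by
  rw [C.tgt, mem_prod, mem_ball_zero_iff, mem_ball_zero_iff]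

theorem mem_tgt0 (ht : ‖t‖ < 2) : ((t, 0) : Cn p × Cn r) ∈ C.φ.target :=
  (mem_tgt C).2 ⟨ht, by simp⟩

theorem same (h₀ : x₀ ∈ 𝒯.M0) {y z : M} (hy : y ∈ C.φ.source) (hz : z ∈ C.φ.source)
    (hT : y ∈ 𝒯.T x₀) (h : (C.φ z).1 = (C.φ y).1) : z ∈ 𝒯.T x₀ ∧ 𝒯.π x₀ z = 𝒯.π x₀ y := by
  have := C.plq y hy (𝒯.T_sub x₀ h₀ hT) z hz h
  rwa [𝒯.π_fib x₀ h₀ y hT] at this

theorem mem_Vt (h₀ : x₀ ∈ 𝒯.M0) (hx : x ∈ C.φ.source) (hT : x ∈ 𝒯.T x₀) :
    (C.φ x).1 ∈ Vt C x₀ ∧ Phi C x₀ (C.φ x).1 = 𝒯.π x₀ x := by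
  have h1 := ((mem_tgt C).1 (C.φ.map_source hx)).1
  have h2 := same C h₀ hx (C.φ.map_target (mem_tgt0 C h1)) hT
    (by rw [C.φ.right_inv (mem_tgt0 C h1)])
  exact ⟨⟨h1, h2.1⟩, h2.2⟩

theorem plq_Vt (h₀ : x₀ ∈ 𝒯.M0) (ht : t ∈ Vt C x₀) {w : Cn r} (hw : ‖w‖ < 2) :
    C.φ.symm (t, w) ∈ 𝒯.T x₀ ∧ 𝒯.π x₀ (C.φ.symm (t, w)) = Phi C x₀ t := by
  have h1 : ((t, w) : Cn p × Cn r) ∈ C.φ.target := (mem_tgt C).2 ⟨ht.1, hw⟩
  exact same C h₀ (C.φ.map_target (mem_tgt0 C ht.1)) (C.φ.map_target h1) ht.2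
    (by rw [C.φ.right_inv h1, C.φ.right_inv (mem_tgt0 C ht.1)])

theorem contAt_sec (ht : ‖t‖ < 2) : ContinuousAt (fun t : Cn p => C.φ.symm (t, (0 : Cn r))) t :=
  ContinuousAt.comp (f := fun t : Cn p => (t, (0 : Cn r)))
    (C.φ.continuousAt_symm (mem_tgt0 C ht)) (by fun_prop)

theorem isOpen_Vt (h₀ : x₀ ∈ 𝒯.M0) : IsOpen (Vt C x₀) := isOpen_iff_mem_nhds.2 fun _ ht =>
  Filter.Eventually.and ((isOpen_lt continuous_norm continuous_const).mem_nhds ht.1)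
    ((contAt_sec C ht.1).eventually ((𝒯.T_opn x₀ h₀).mem_nhds ht.2))

theorem an_Phi (h₀ : x₀ ∈ 𝒯.M0) (ht : t ∈ Vt C x₀) : AnalyticAt ℂ (Phi C x₀) t := by
  refine Crest.Agent.R266.SCV.analyticOnNhd_of_differentiableOn (isOpen_Vt C h₀)
    (fun t ht => DifferentiableAt.differentiableWithinAt ?_) t ht
  have h1 := mem_tgt0 C ht.1
  have h2 := (Fol.tube_an 𝒯 h₀ ht.2 (C.sub (C.φ.map_target h1))).differentiableAt
  have h3 : DifferentiableAt ℂ (fun t : Cn p => A.e C.i (C.φ.symm (t, (0 : Cn r)))) t :=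
    DifferentiableAt.comp (f := fun t : Cn p => (t, (0 : Cn r))) t
      (C.hol'.differentiableAt (C.φ.open_target.mem_nhds h1)) (by fun_prop)
  refine (DifferentiableAt.comp t (f := fun t : Cn p => A.e C.i (C.φ.symm (t, (0 : Cn r))))
    h2 h3).congr_of_eventuallyEq ?_
  filter_upwards [(isOpen_Vt C h₀).mem_nhds ht] with t' ht'
  simp only [Function.comp, Phi]
  rw [(A.e C.i).left_inv (C.sub (C.φ.map_target (mem_tgt0 C ht'.1)))]

theorem diff_t (hx : x ∈ C.φ.source) {j : A.ι} (hj : x ∈ (A.e j).source) :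
    DifferentiableAt ℂ (fun z => (C.φ ((A.e j).symm z)).1) (A.e j x) :=
  (Fol.holV_an (f := fun y => (C.φ y).1) C.φ.open_source C.hol₁ hx hj).differentiableAt

/-- the chain rule `dπ = dΦ ∘ dt` -/
theorem chain (h₀ : x₀ ∈ 𝒯.M0) (hx : x ∈ C.φ.source) (hT : x ∈ 𝒯.T x₀) {j : A.ι}
    (hj : x ∈ (A.e j).source) :
    fderiv ℂ (fun z => 𝒯.π x₀ ((A.e j).symm z)) (A.e j x) = (fderiv ℂ (Phi C x₀) (C.φ x).1).comp
      (fderiv ℂ (fun z => (C.φ ((A.e j).symm z)).1) (A.e j x)) := by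
  have h1 := (an_Phi C h₀ (mem_Vt C h₀ hx hT).1).differentiableAt.hasFDerivAt
  have h2 := HasFDerivAt.comp (A.e j x) (g := Phi C x₀)
    (f := fun z => (C.φ ((A.e j).symm z)).1) (by rw [(A.e j).left_inv hj]; exact h1)
    (diff_t C hx hj).hasFDerivAt
  refine (h2.congr_of_eventuallyEq ?_).fderiv
  have h3 : Tendsto (A.e j).symm (𝓝 (A.e j x)) (𝓝 x) := (A.e j).tendsto_symm hj
  filter_upwards [h3.eventually (C.φ.open_source.mem_nhds hx),
    h3.eventually ((𝒯.T_opn x₀ h₀).mem_nhds hT)] with z k1 k2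
  exact (mem_Vt C h₀ k1 k2).2.symm

theorem inv_Phi (h₀ : x₀ ∈ 𝒯.M0) (ht : t ∈ Vt C x₀) : (fderiv ℂ (Phi C x₀) t).IsInvertible := by
  have h1 := mem_tgt0 C ht.1
  have h2 := C.φ.map_target h1
  have h3 := Fol.tube_surj 𝒯 h₀ ht.2 (C.sub h2)
  rw [chain C h₀ h2 ht.2 (C.sub h2), C.φ.right_inv h1] at h3
  have h4 : Function.Surjective (fderiv ℂ (Phi C x₀) t) := Function.Surjective.of_comp h3
  exact ⟨ContinuousLinearEquiv.ofBijective _ (LinearMap.ker_eq_bot.2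
    (LinearMap.injective_iff_surjective.2 h4)) (LinearMap.range_eq_top.2 h4), rfl⟩

theorem Bm_left (h₀ : x₀ ∈ 𝒯.M0) (ht : t ∈ Vt C x₀) (w : Cn p) :
    Bm C x₀ t (fderiv ℂ (Phi C x₀) t w) = w := (inv_Phi C h₀ ht).inverse_apply_self w

theorem Bm_right (h₀ : x₀ ∈ 𝒯.M0) (ht : t ∈ Vt C x₀) (w : Cn p) :
    fderiv ℂ (Phi C x₀) t (Bm C x₀ t w) = w := (inv_Phi C h₀ ht).self_apply_inverse w

theorem jd_Bm (h₀ : x₀ ∈ 𝒯.M0) (hx : x ∈ C.φ.source) (hT : x ∈ 𝒯.T x₀) :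
    jd (Bm C x₀ (C.φ x).1) ≠ 0 := Law.jd_ne_iff.2 fun w hw => by
  rw [← Bm_right C h₀ (mem_Vt C h₀ hx hT).1 w, hw, map_zero]

/-- the frame identity `dt = det B • dπ`, in every chart -/
theorem dW_t (h₀ : x₀ ∈ 𝒯.M0) (hx : x ∈ C.φ.source) (hT : x ∈ 𝒯.T x₀) {j : A.ι}
    (hj : x ∈ (A.e j).source) :
    dW A j (fun y => (C.φ y).1) x = (mt (Bm C x₀ (C.φ x).1)).det • dW A j (𝒯.π x₀) x := by
  rw [Frb.Main.dW_eq (f := fun y => (C.φ y).1) (diff_t C hx hj),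
    Frb.Main.dW_eq (Fol.tube_an 𝒯 h₀ hT hj).differentiableAt, ← Fol.wdg_row_left,
    chain C h₀ hx hT hj]
  congr 2
  exact ContinuousLinearMap.ext fun v => (Bm_left C h₀ (mem_Vt C h₀ hx hT).1 _).symm

variable [T2Space M] (H : KP A)

omit [T2Space M] in
theorem inj_Phi (h₀ : x₀ ∈ 𝒯.M0) (ht : t ∈ Vt C x₀) : ∃ V ∈ 𝓝 t, InjOn (Phi C x₀) V := by
  obtain ⟨L, hL⟩ := inv_Phi C h₀ ht
  have hd : HasStrictFDerivAt (Phi C x₀) (L : Cn p →L[ℂ] Cn p) t :=
    hL ▸ (an_Phi C h₀ ht).hasStrictFDerivAt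
  exact ⟨_, (hd.toOpenPartialHomeomorph _).open_source.mem_nhds
    hd.mem_toOpenPartialHomeomorph_source, (hd.toOpenPartialHomeomorph _).injOn⟩

/-- the transverse data near a point -/
theorem exists_tr (h₀ : x₀ ∈ 𝒯.M0) (ht : t ∈ Vt C x₀) : ∃ (U : Set (Cn p)) (C₀ : ℝ), t ∈ U ∧
    U ⊆ Vt C x₀ ∧ Tr (pch C) H (𝒯.T x₀) (𝒯.π x₀) (Phi C x₀) U C₀ := by
  have h1 := mem_tgt0 C ht.1
  have h2 := C.φ.map_target h1
  obtain ⟨V, hV, hinj⟩ := inj_Phi C h₀ ht
  have hO : {z | z ∈ C.φ.source ∧ C.φ z ∈ V ×ˢ closedBall (0 : Cn r) 1} ∈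
      𝓝 (C.φ.symm (t, 0)) := Filter.Eventually.and (C.φ.open_source.mem_nhds h2)
    ((C.φ.continuousAt h2).eventually (by
      rw [C.φ.right_inv h1]
      exact prod_mem_nhds hV (closedBall_mem_nhds _ one_pos)))
  obtain ⟨C₀, hC₀, h3⟩ := En.Fh.fh_tube H 𝒯 h₀ ht.2 hO
  obtain ⟨U, hU, hUo, htU⟩ := _root_.eventually_nhds_iff.1 ((((contAt_sec C ht.1).eventually h3).and
    hV).and ((isOpen_Vt C h₀).mem_nhds ht))
  have hpt : ∀ t ∈ U, ∀ w' : Cn r, ‖w'‖ ≤ 1 → (pch C).pt (t, w') = C.φ.symm (t, w') :=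
    fun t ht w' hw' => pch_pt C ⟨mem_ball_zero_iff.2 (hU t ht).2.1,
      mem_ball_zero_iff.2 (hw'.trans_lt one_lt_two)⟩
  refine ⟨U, C₀, htU, fun t ht => (hU t ht).2, hUo, hC₀, fun t ht w' hw' => ?_,
    fun v hv t ht b hb x hx h4 => ?_⟩
  · rw [hpt t ht w' hw']
    exact plq_Vt C h₀ (hU t ht).2 (hw'.trans_lt one_lt_two)
  · obtain ⟨⟨k1, k2⟩, k3⟩ := hU t ht
    rw [𝒯.π_fib x₀ h₀ _ k3.2] at k1
    refine k1 v (hv.mono (𝒯.T_opn x₀ h₀) (subset_univ _)) b (fun z hz h5 => ?_) x ⟨hx, h4⟩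
    have h6 : (C.φ z).1 = t := hinj hz.2.1 k2 ((mem_Vt C h₀ hz.1 h5.1).2.trans h5.2)
    have h7 := mem_closedBall_zero_iff.1 hz.2.2
    have h8 := hb _ h7
    rwa [hpt t ht _ h7, ← h6, Prod.mk.eta, C.φ.left_inv hz.1] at h8

/-- the sharp shape, with a locally uniform constant -/
theorem shape (h₀ : x₀ ∈ 𝒯.M0) (hx : x ∈ C.φ.source) (hT : x ∈ 𝒯.T x₀) :
    ∃ C₀ : ℝ, ∀ᶠ z in 𝓝 x, z ∈ C.φ.source ∧ z ∈ 𝒯.T x₀ ∧ (‖(C.φ z).1‖ ≤ 1 →
      Law.Shp H (𝒯.T x₀) (𝒯.π x₀) (𝒯.π x₀ z) (Bm C x₀ (C.φ z).1) C₀ (Fs (pch C) H (C.φ z).1)) := by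
  obtain ⟨U, C₀, h1, h2, D⟩ := exists_tr C H h₀ (mem_Vt C h₀ hx hT).1
  refine ⟨C₀ + 2 * (pch C).bd H, ?_⟩
  filter_upwards [C.φ.open_source.mem_nhds hx, (𝒯.T_opn x₀ h₀).mem_nhds hT,
    (C.φ.continuousAt hx).fst.eventually (D.op.mem_nhds h1)] with z k1 k2 k3
  refine ⟨k1, k2, fun k4 => ?_⟩
  rw [← (mem_Vt C h₀ k1 k2).2]
  exact D.shp k4 k3 (an_Phi C h₀ (h2 k3)).hasStrictFDerivAt (Bm_left C h₀ (h2 k3))
    (Bm_right C h₀ (h2 k3))

/-- (F2) and (F3) -/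
theorem crude (h₀ : x₀ ∈ 𝒯.M0) (hx : x ∈ C.φ.source) (hT : x ∈ 𝒯.T x₀) (h1 : ‖(C.φ x).1‖ ≤ 1) :
    ∃ C₀ r₀ s₁ : ℝ, 0 < r₀ ∧
      F2 (𝒯.T x₀) (𝒯.π x₀) (𝒯.π x₀ x) (Fs (pch C) H (C.φ x).1) C₀ s₁ ∧
      F3 H (𝒯.T x₀) (𝒯.π x₀) (𝒯.π x₀ x) (Fs (pch C) H (C.φ x).1) C₀ r₀ s₁ := by
  obtain ⟨k1, k2⟩ := mem_Vt C h₀ hx hT
  obtain ⟨U, C₀, h2, -, D⟩ := exists_tr C H h₀ k1
  rw [← k2]
  exact D.crude h1 h2 (an_Phi C h₀ k1).hasStrictFDerivAt (Bm_left C h₀ k1) (Bm_right C h₀ k1)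

/-- the field `inc` -/
theorem inc (C' : FCh 𝒯 r ε) (h₀ : x ∈ 𝒯.M0) (hx : x ∈ C.φ.source) (hx' : x ∈ C'.φ.source)
    (h1 : ‖(C.φ x).1‖ ≤ 1) (h1' : ‖(C'.φ x).1‖ ≤ 1) {c : ℝ} (hc : 0 < c) :
    ∃ μ τ : ℝ, ∀ᶠ s in atTop, ∀ f ∈ QQ H, f ∈ Fs (pch C) H (C.φ x).1 s (c * s) →
      f ∈ Fs (pch C') H (C'.φ x).1 (s + μ) (c * s - τ) := by
  obtain ⟨_, _, _, hr, -, h3⟩ := crude C H h₀ hx (𝒯.T_mem x h₀) h1
  obtain ⟨_, _, _, -, h2, -⟩ := crude C' H h₀ hx' (𝒯.T_mem x h₀) h1'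
  exact inc_of hr h3 h2 hc

/-- the hypothesis of `Law.field` without the asymptotics -/
theorem pair (C' : FCh 𝒯 r ε) (h₀ : x₀ ∈ 𝒯.M0) (hT : x ∈ 𝒯.T x₀) (hx : x ∈ C.φ.source)
    (hx' : x ∈ C'.φ.source) (h1 : ‖(C.φ x).1‖ < 1) (h1' : ‖(C'.φ x).1‖ < 1) :
    ∃ C₀ : ℝ, ∀ᶠ z in 𝓝 x, z ∈ 𝒯.T x₀ ∧ z ∈ C.φ.source ∧ z ∈ C'.φ.source ∧
      ‖(C.φ z).1‖ < 1 ∧ ‖(C'.φ z).1‖ < 1 ∧
      jd (Bm C x₀ (C.φ z).1) ≠ 0 ∧ jd (Bm C' x₀ (C'.φ z).1) ≠ 0 ∧
      Law.Shp H (𝒯.T x₀) (𝒯.π x₀) (𝒯.π x₀ z) (Bm C x₀ (C.φ z).1) C₀ (Fs (pch C) H (C.φ z).1) ∧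
      Law.Shp H (𝒯.T x₀) (𝒯.π x₀) (𝒯.π x₀ z) (Bm C' x₀ (C'.φ z).1) C₀
        (Fs (pch C') H (C'.φ z).1) := by
  obtain ⟨a, ha⟩ := shape C H h₀ hx hT
  obtain ⟨b, hb⟩ := shape C' H h₀ hx' hT
  refine ⟨max a b, ?_⟩
  filter_upwards [ha, hb, (C.φ.continuousAt hx).fst.norm.eventually_lt continuousAt_const h1,
    (C'.φ.continuousAt hx').fst.norm.eventually_lt continuousAt_const h1'] with z k1 k2 k3 k4
  exact ⟨k1.2.1, k1.1, k2.1, k3, k4, jd_Bm C h₀ k1.1 k1.2.1, jd_Bm C' h₀ k2.1 k1.2.1,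
    (k1.2.2 k3.le).mono (le_max_left _ _), (k2.2.2 k4.le).mono (le_max_right _ _)⟩

end

end Crest.Agent.X261.Shp21
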